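import Crest.Agent.R104.Defs

/-! S0137 (rid 104): tasks A1 and A2, algebraic input about quartic Salem numbers. -/

set_option autoImplicit false

namespace Crest.Agent.R104

open Polynomial Crest.AnalysisR
open scoped Real

/-- `1, β, β², β³` are linearly independent over the rationals. -/
theorem salem_indep {β : ℝ} (hβ : IsQuarticSalem β) {x0 x1 x2 x3 : ℚ}
    (h : (x0 : ℝ) + x1 * β + x2 * β ^ 2 + x3 * β ^ 3 = 0) :
    x0 = 0 ∧ x1 = 0 ∧ x2 = 0 ∧ x3 = 0 := by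
  set Q : ℚ[X] := C x0 + C x1 * X + C x2 * X ^ 2 + C x3 * X ^ 3 with hQ
  have hdeg : Q.degree < 4 := by
    rw [hQ]; compute_degree!
  have haev : aeval β Q = 0 := by
    rw [hQ]; simpa using h
  have hQ0 : Q = 0 := by
    by_contra hne
    have h1 := minpoly.degree_le_of_ne_zero ℚ β hne haev
    have h2 : (minpoly ℚ β).degree = 4 := by
      rw [Polynomial.degree_eq_natDegree, hβ.2.2.1]
      · rfl
      · intro h0
        have := hβ.2.2.1
        rw [h0] at this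
        simp at this
    rw [h2] at h1
    exact absurd hdeg (not_lt.2 h1)
  have c0 : Q.coeff 0 = x0 := by
    rw [hQ]; simp [coeff_X, coeff_C]
  have c1 : Q.coeff 1 = x1 := by
    rw [hQ]; simp [coeff_X, coeff_C]
  have c2 : Q.coeff 2 = x2 := by
    rw [hQ]; simp [coeff_X, coeff_C]
  have c3 : Q.coeff 3 = x3 := by
    rw [hQ]; simp [coeff_X, coeff_C]
  rw [hQ0] at c0 c1 c2 c3
  simp only [coeff_zero] at c0 c1 c2 c3
  exact ⟨c0.symm, c1.symm, c2.symm, c3.symm⟩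

/-- evaluation of the minimal polynomial at a real point through its integer coefficients -/
theorem salem_eval {β : ℝ} (hβ : IsQuarticSalem β) (x : ℝ) :
    aeval x (minpoly ℚ β) = ((minpoly ℤ β).coeff 0 : ℝ) + ((minpoly ℤ β).coeff 1 : ℝ) * x +
      ((minpoly ℤ β).coeff 2 : ℝ) * x ^ 2 + ((minpoly ℤ β).coeff 3 : ℝ) * x ^ 3 + x ^ 4 := by
  have hmap : minpoly ℚ β = (minpoly ℤ β).map (algebraMap ℤ ℚ) :=
    minpoly.isIntegrallyClosed_eq_field_fractions' ℚ hβ.2.1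
  have hd : (minpoly ℤ β).natDegree = 4 := by
    have := hβ.2.2.1
    rw [hmap, (minpoly.monic hβ.2.1).natDegree_map] at this
    exact this
  have hlead : (minpoly ℤ β).coeff 4 = 1 := by
    have := (minpoly.monic hβ.2.1).coeff_natDegree
    rwa [hd] at this
  rw [hmap, aeval_map_algebraMap, aeval_eq_sum_range, hd]
  simp only [Finset.sum_range_succ, Finset.sum_range_zero, hlead, zsmul_eq_mul]
  push_cast
  ring

/-- TASK A2: `β⁻¹` is integral -/
theorem taskA2 (β : ℝ) (hβ : IsQuarticSalem β) : IsIntegral ℤ β⁻¹ := by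
  have hmap : minpoly ℚ β = (minpoly ℤ β).map (algebraMap ℤ ℚ) :=
    minpoly.isIntegrallyClosed_eq_field_fractions' ℚ hβ.2.1
  refine ⟨minpoly ℤ β, minpoly.monic hβ.2.1, ?_⟩
  have h := hβ.2.2.2.1
  rw [hmap, aeval_map_algebraMap] at h
  exact h

theorem int_sq_eq_one {a : ℤ} (h : a ^ 2 = 1) : a = 1 ∨ a = -1 := by
  have h' : (a - 1) * (a + 1) = 0 := by linear_combination h
  rcases mul_eq_zero.1 h' with h | h
  · left; linarith
  · right; linarith

/-- the quadratic data of a quartic Salem number -/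
theorem salem_pc {β : ℝ} (hβ : IsQuarticSalem β) :
    ∃ (A B : ℤ) (c : ℝ), |c| ≤ 2 ∧ (β + β⁻¹) + c = A ∧ (β + β⁻¹) * c = B := by
  have h1 : 1 < β := hβ.1
  have hβ0 : β ≠ 0 := by positivity
  set a0 : ℤ := (minpoly ℤ β).coeff 0 with ha0
  set a1 : ℤ := (minpoly ℤ β).coeff 1 with ha1
  set a2 : ℤ := (minpoly ℤ β).coeff 2 with ha2
  set a3 : ℤ := (minpoly ℤ β).coeff 3 with ha3
  have ev := salem_eval hβ
  rw [← ha0, ← ha1, ← ha2, ← ha3] at ev
  have e1 : (a0 : ℝ) + a1 * β + a2 * β ^ 2 + a3 * β ^ 3 + β ^ 4 = 0 := by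
    rw [← ev β]; exact minpoly.aeval ℚ β
  have e2 : (a0 : ℝ) * β ^ 4 + a1 * β ^ 3 + a2 * β ^ 2 + a3 * β + 1 = 0 := by
    have h := hβ.2.2.2.1
    rw [ev] at h
    have h' : β ^ 4 * ((a0 : ℝ) + a1 * β⁻¹ + a2 * β⁻¹ ^ 2 + a3 * β⁻¹ ^ 3 + β⁻¹ ^ 4) = 0 := by
      rw [h, mul_zero]
    have h'' : β ^ 4 * ((a0 : ℝ) + a1 * β⁻¹ + a2 * β⁻¹ ^ 2 + a3 * β⁻¹ ^ 3 + β⁻¹ ^ 4)
        = (a0 : ℝ) * β ^ 4 + a1 * β ^ 3 + a2 * β ^ 2 + a3 * β + 1 := by
      field_simp
    rw [← h'', h']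
  -- palindromic up to the sign `a0`
  have e3 : (((1 - a0 ^ 2 : ℤ) : ℚ) : ℝ) + (((a3 - a0 * a1 : ℤ) : ℚ) : ℝ) * β +
      (((a2 - a0 * a2 : ℤ) : ℚ) : ℝ) * β ^ 2 + (((a1 - a0 * a3 : ℤ) : ℚ) : ℝ) * β ^ 3 = 0 := by
    push_cast
    linear_combination e2 - (a0 : ℝ) * e1
  obtain ⟨f0, f1, f2, f3⟩ := salem_indep hβ e3
  have g0 : a0 ^ 2 = 1 := by
    have : (1 - a0 ^ 2 : ℤ) = 0 := by exact_mod_cast f0
    linarith
  have g1 : a3 = a0 * a1 := by
    have : (a3 - a0 * a1 : ℤ) = 0 := by exact_mod_cast f1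
    linarith
  have g2 : a2 = a0 * a2 := by
    have : (a2 - a0 * a2 : ℤ) = 0 := by exact_mod_cast f2
    linarith
  have ha0' : a0 = 1 := by
    rcases (int_sq_eq_one g0) with h | h
    · exact h
    · exfalso
      rw [h] at g1 g2
      have g2' : a2 = 0 := by linarith
      have e4 : (β ^ 2 - 1) * (β ^ 2 + a3 * β + 1) = 0 := by
        have e5 : (a0 : ℝ) = -1 := by rw [h]; norm_num
        have e6 : (a1 : ℝ) = - a3 := by rw [g1]; push_cast; ring
        have e7 : (a2 : ℝ) = 0 := by rw [g2']; norm_num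
        rw [e5, e6, e7] at e1
        linear_combination e1
      have hne : β ^ 2 - 1 ≠ 0 := by nlinarith
      have e5 : β ^ 2 + a3 * β + 1 = 0 := (mul_eq_zero.1 e4).resolve_left hne
      have e6 : ((1 : ℚ) : ℝ) + ((a3 : ℚ) : ℝ) * β + ((1 : ℚ) : ℝ) * β ^ 2 + ((0 : ℚ) : ℝ) * β ^ 3 = 0 := by
        push_cast
        linear_combination e5
      exact one_ne_zero (salem_indep hβ e6).1
  have ha3' : a3 = a1 := by rw [g1, ha0', one_mul]
  have hA0 : (a0 : ℝ) = 1 := by rw [ha0']; norm_num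
  have hA3 : (a3 : ℝ) = a1 := by rw [ha3']
  rw [hA0, hA3] at e1
  have hinv : β * β⁻¹ = 1 := mul_inv_cancel₀ hβ0
  set p : ℝ := β + β⁻¹ with hp
  have hpq : p ^ 2 + a1 * p + a2 - 2 = 0 := by
    have : β ^ 2 * (p ^ 2 + a1 * p + a2 - 2) = 0 := by
      rw [hp]
      have h2 : β ^ 2 * ((β + β⁻¹) ^ 2 + a1 * (β + β⁻¹) + a2 - 2)
          = 1 + a1 * β + a2 * β ^ 2 + a1 * β ^ 3 + β ^ 4 := by
        field_simp
        ring
      rw [h2, e1]
    rcases mul_eq_zero.1 this with h | h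
    · exact absurd h (pow_ne_zero 2 hβ0)
    · exact h
  refine ⟨-a1, a2 - 2, -a1 - p, ?_, by push_cast; ring, ?_⟩
  · -- the bound on `c`
    by_contra hc
    rw [not_le] at hc
    set c : ℝ := -a1 - p with hcdef
    have hc2 : 4 < c ^ 2 := by
      have : (2 : ℝ) ^ 2 < |c| ^ 2 := pow_lt_pow_left₀ hc (by norm_num) (by norm_num)
      rw [sq_abs] at this
      linarith
    set s : ℝ := Real.sqrt (c ^ 2 - 4) with hs
    have hs2 : s ^ 2 = c ^ 2 - 4 := Real.sq_sqrt (by linarith)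
    set z : ℝ := (c + s) / 2 with hz
    have hz2 : z ^ 2 - c * z + 1 = 0 := by
      rw [hz]; linear_combination (1 / 4 : ℝ) * hs2
    have hPz : aeval z (minpoly ℚ β) = 0 := by
      rw [ev z, hA0, hA3]
      have hfac : (1 : ℝ) + a1 * z + a2 * z ^ 2 + a1 * z ^ 3 + z ^ 4
          = (z ^ 2 - c * z + 1) * (z ^ 2 - p * z + 1) + (p ^ 2 + a1 * p + a2 - 2) * z ^ 2 := by
        rw [hcdef]; ring
      rw [hfac, hz2, hpq]; ring
    have hPzC : aeval ((z : ℝ) : ℂ) (minpoly ℚ β) = 0 := by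
      have := aeval_algebraMap_apply ℂ z (minpoly ℚ β)
      rw [hPz, map_zero] at this
      exact this
    -- if `c = p` then `β` is quadratic over the rationals
    have hcp : c = p → False := by
      intro h
      have h3 : 2 * (β + β⁻¹) + a1 = 0 := by
        rw [← hp]; rw [hcdef] at h; linarith
      have h4 : 2 + a1 * β + 2 * β ^ 2 = 0 := by
        have h5 : β * (2 * (β + β⁻¹) + a1) = 0 := by rw [h3, mul_zero]
        linear_combination h5 - 2 * hinv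
      have e6 : ((2 : ℚ) : ℝ) + ((a1 : ℚ) : ℝ) * β + ((2 : ℚ) : ℝ) * β ^ 2 + ((0 : ℚ) : ℝ) * β ^ 3 = 0 := by
        push_cast
        linear_combination h4
      exact two_ne_zero (salem_indep hβ e6).1
    rcases hβ.2.2.2.2 _ hPzC with h | h | h
    · have hzβ : z = β := by exact_mod_cast h
      apply hcp
      rw [hzβ] at hz2
      have : c * β = β ^ 2 + 1 := by linarith
      have h6 : c = (β ^ 2 + 1) * β⁻¹ := by
        rw [← this, mul_assoc, hinv, mul_one]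
      rw [h6, hp]
      field_simp
    · have hzβ : z = β⁻¹ := by exact_mod_cast h
      apply hcp
      rw [hzβ] at hz2
      have h7 : β ^ 2 * (β⁻¹ ^ 2 - c * β⁻¹ + 1) = 0 := by rw [hz2, mul_zero]
      have h8 : β ^ 2 * (β⁻¹ ^ 2 - c * β⁻¹ + 1) = 1 - c * β + β ^ 2 := by
        field_simp
      have : c * β = β ^ 2 + 1 := by rw [h8] at h7; linarith
      have h6 : c = (β ^ 2 + 1) * β⁻¹ := by
        rw [← this, mul_assoc, hinv, mul_one]
      rw [h6, hp]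
      field_simp
    · rw [Complex.norm_real, Real.norm_eq_abs] at h
      rcases abs_eq (by norm_num : (0 : ℝ) ≤ 1) |>.1 h with h' | h'
      · rw [h'] at hz2
        have : c = 2 := by linarith
        rw [this] at hc2; norm_num at hc2
      · rw [h'] at hz2
        have : c = -2 := by linarith
        rw [this] at hc2; norm_num at hc2
  · push_cast
    linear_combination -hpq

/-- TASK A1: algebraic input -/
theorem taskA1 (β : ℝ) (hβ : IsQuarticSalem β) :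
    ∃ θ : ℝ, ∀ m : ℤ, ∃ n : ℤ, β ^ m + β ^ (-m) + 2 * Real.cos (m * θ) = n := by
  obtain ⟨A, B, c, hc, hA, hB⟩ := salem_pc hβ
  have h1 : 1 < β := hβ.1
  have hβ0 : β ≠ 0 := by positivity
  have hcos : 2 * Real.cos (Real.arccos (c / 2)) = c := by
    have := abs_le.1 hc
    rw [Real.cos_arccos (by linarith) (by linarith)]
    ring
  set θ := Real.arccos (c / 2) with hθ
  have key : ∀ m : ℕ,
      (∃ n : ℤ, β ^ (m : ℤ) + β ^ (-(m : ℤ)) + 2 * Real.cos (m * θ) = n) ∧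
      (∃ n : ℤ, c * (β ^ (m : ℤ) + β ^ (-(m : ℤ))) + (β + β⁻¹) * (2 * Real.cos (m * θ)) = n) ∧
      (∃ n : ℤ, β ^ ((m + 1 : ℕ) : ℤ) + β ^ (-((m + 1 : ℕ) : ℤ)) + 2 * Real.cos ((m + 1 : ℕ) * θ) = n) ∧
      (∃ n : ℤ, c * (β ^ ((m + 1 : ℕ) : ℤ) + β ^ (-((m + 1 : ℕ) : ℤ))) +
        (β + β⁻¹) * (2 * Real.cos ((m + 1 : ℕ) * θ)) = n) := by
    intro m
    induction m with
    | zero =>
      refine ⟨⟨4, ?_⟩, ⟨2 * A, ?_⟩, ⟨A, ?_⟩, ⟨2 * B, ?_⟩⟩
      · norm_num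
      · norm_num
        linear_combination 2 * hA
      · norm_num
        rw [← hA, hcos]
      · norm_num
        rw [hcos]
        linear_combination 2 * hB
    | succ m ih =>
      obtain ⟨⟨s0, hs0⟩, ⟨r0, hr0⟩, ⟨s1, hs1⟩, ⟨r1, hr1⟩⟩ := ih
      refine ⟨⟨s1, hs1⟩, ⟨r1, hr1⟩, ⟨A * s1 - r1 - s0, ?_⟩, ⟨B * s1 - r0, ?_⟩⟩
      all_goals
        have hu : β ^ ((m + 1 + 1 : ℕ) : ℤ) + β ^ (-((m + 1 + 1 : ℕ) : ℤ))
            = (β + β⁻¹) * (β ^ ((m + 1 : ℕ) : ℤ) + β ^ (-((m + 1 : ℕ) : ℤ)))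
              - (β ^ (m : ℤ) + β ^ (-(m : ℤ))) := by
          rw [zpow_neg, zpow_neg, zpow_neg, zpow_natCast, zpow_natCast, zpow_natCast]
          field_simp
          ring
        have hv : 2 * Real.cos ((m + 1 + 1 : ℕ) * θ)
            = c * (2 * Real.cos ((m + 1 : ℕ) * θ)) - 2 * Real.cos (m * θ) := by
          have e1 : ((m + 1 + 1 : ℕ) : ℝ) * θ = ((m + 1 : ℕ) : ℝ) * θ + θ := by push_cast; ring
          have e2 : (m : ℝ) * θ = ((m + 1 : ℕ) : ℝ) * θ - θ := by push_cast; ring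
          rw [e1, e2, Real.cos_add, Real.cos_sub, ← hcos]
          ring
        rw [hu, hv]
        push_cast [← hA, ← hB, ← hs0, ← hs1, ← hr0, ← hr1]
        ring
  refine ⟨θ, fun m => ?_⟩
  obtain ⟨k, rfl | rfl⟩ := m.eq_nat_or_neg
  · obtain ⟨n, hn⟩ := (key k).1
    exact ⟨n, by push_cast; exact_mod_cast hn⟩
  · obtain ⟨n, hn⟩ := (key k).1
    refine ⟨n, ?_⟩
    rw [← hn]
    push_cast
    rw [neg_neg, neg_mul, Real.cos_neg]
    ring

end Crest.Agent.R104
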