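import Crest.Agent.R104.Defs

/-!
Task B, part 1: the states, the step inequality, positivity and far estimates.
-/

set_option autoImplicit false

namespace Crest.Agent.R104

open scoped Real

lemma bcc_add_int (x : ℝ) (n : ℤ) : cc (x + n) = cc x := by
  unfold cc
  have : 2 * π * (x + n) = 2 * π * x + n * (2 * π) := by ring
  rw [this, Real.cos_add_int_mul_two_pi]

lemma bcc_int_add (x : ℝ) (n : ℤ) : cc (n + x) = cc x := by
  rw [add_comm, bcc_add_int]

lemma bcc_neg (x : ℝ) : cc (-x) = cc x := by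
  unfold cc
  rw [mul_neg, Real.cos_neg]

lemma babs_cc_le_one (x : ℝ) : |cc x| ≤ 1 := Real.abs_cos_le_one _

lemma bcc_sub_le (x y : ℝ) : |cc x - cc y| ≤ 2 * π * |x - y| := by
  unfold cc
  have h := Real.abs_cos_sub_cos_le (2 * π * x) (2 * π * y)
  have e : |2 * π * x - 2 * π * y| = 2 * π * |x - y| := by
    rw [← mul_sub, abs_mul, abs_of_pos Real.two_pi_pos]
  rwa [e] at h

/-- If `x - y` is close to an integer then `|cc x|` is close to `|cc y|`. -/
lemma abs_cc_ge_sub (x y d : ℝ) (n : ℤ) (h : |x - y - n| ≤ d) : |cc y| - 2 * π * d ≤ |cc x| := by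
  have h1 : cc x = cc (x - n) := by
    have := bcc_add_int (x - n) n
    rw [← this]; congr 1; ring
  have h2 := bcc_sub_le (x - n) y
  have h3 : |x - n - y| ≤ d := by
    have : x - n - y = x - y - n := by ring
    rwa [this]
  have h4 : |cc y| - |cc (x - n)| ≤ |cc y - cc (x - n)| := abs_sub_abs_le_abs_sub _ _
  rw [abs_sub_comm] at h4
  have h5 : 2 * π * |x - n - y| ≤ 2 * π * d := by
    apply mul_le_mul_of_nonneg_left h3 Real.two_pi_pos.le
  rw [h1]
  linarith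

lemma cc_ge (x : ℝ) : 1 - 2 * π ^ 2 * x ^ 2 ≤ |cc x| := by
  have h := Real.one_sub_sq_div_two_le_cos (x := 2 * π * x)
  have h2 : cc x ≤ |cc x| := le_abs_self _
  unfold cc at *
  nlinarith

/-- far version: `x` close to an integer. -/
lemma cc_ge_of_near (x d : ℝ) (n : ℤ) (hd : |x - n| ≤ d) : 1 - 2 * π ^ 2 * d ^ 2 ≤ |cc x| := by
  have h1 : cc x = cc (x - n) := by
    have := bcc_add_int (x - n) n
    rw [← this]; congr 1; ring
  rw [h1]
  have h := cc_ge (x - n)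
  have h2 : (x - n) ^ 2 ≤ d ^ 2 := by
    have := sq_abs (x - n)
    rw [← this]
    exact pow_le_pow_left₀ (abs_nonneg _) hd 2
  have hpi : 0 ≤ 2 * π ^ 2 := by positivity
  nlinarith [mul_le_mul_of_nonneg_left h2 hpi]

/-- A state. -/
structure St (β θ t a : ℝ) : Prop where
  int : IsIntegral ℤ t
  one_le : 1 ≤ t
  rel : ∃ s φ : ℝ, (s = 1 ∨ s = -1) ∧
    ∀ m : ℤ, ∃ n : ℤ, t * β ^ m + s * (t * β ^ (-m)) + a * Real.cos (m * θ + φ) = n

lemma St.init {β θ : ℝ}
    (hrel : ∀ m : ℤ, ∃ n : ℤ, β ^ m + β ^ (-m) + 2 * Real.cos (m * θ) = n) : St β θ 1 2 where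
  int := isIntegral_one
  one_le := le_rfl
  rel := by
    refine ⟨1, 0, Or.inl rfl, fun m => ?_⟩
    obtain ⟨n, hn⟩ := hrel m
    exact ⟨n, by simpa using hn⟩

lemma cos_diff (x y : ℝ) :
    Real.cos (x + y) - Real.cos (x - y) = 2 * Real.sin y * Real.cos (x + π / 2) := by
  rw [Real.cos_add, Real.cos_sub, Real.cos_add_pi_div_two]
  ring

lemma St.z_step {θ a φ : ℝ} (m : ℤ) (l : ℕ) :
    a * Real.cos (((m + l : ℤ) : ℝ) * θ + φ) - a * Real.cos (((m - l : ℤ) : ℝ) * θ + φ) =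
      (2 * a * Real.sin (l * θ)) * Real.cos (m * θ + (φ + π / 2)) := by
  have h := cos_diff (m * θ + φ) (l * θ)
  have e1 : ((m + l : ℤ) : ℝ) * θ + φ = m * θ + φ + l * θ := by push_cast; ring
  have e2 : ((m - l : ℤ) : ℝ) * θ + φ = m * θ + φ - l * θ := by push_cast; ring
  rw [e1, e2, ← mul_sub, h]
  have e3 : (m : ℝ) * θ + φ + π / 2 = m * θ + (φ + π / 2) := by ring
  rw [e3]; ring

lemma x_step {β : ℝ} (h0 : β ≠ 0) (t : ℝ) (m : ℤ) (l : ℕ) :
    t * (β ^ (l : ℤ) - β ^ (-(l : ℤ))) * β ^ m = t * β ^ (m + l) - t * β ^ (m - l) := by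
  rw [sub_eq_add_neg m, zpow_add₀ h0, zpow_add₀ h0]
  ring

/-- The step. -/
lemma St.step {β θ t a : ℝ} (h1 : 1 < β) (hint : IsIntegral ℤ β) (hint' : IsIntegral ℤ β⁻¹)
    (hs : St β θ t a) (l : ℕ) (hl : 2 ≤ β ^ (l : ℤ)) :
    St β θ (t * (β ^ (l : ℤ) - β ^ (-(l : ℤ)))) (2 * a * Real.sin (l * θ)) where
  int := by
    refine hs.int.mul (IsIntegral.sub ?_ ?_)
    · rw [zpow_natCast]; exact hint.pow l
    · rw [zpow_neg, zpow_natCast, ← inv_pow]; exact hint'.pow l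
  one_le := by
    have hb : 0 < β := by linarith
    have h2 : β ^ (-(l : ℤ)) ≤ 1 / 2 := by
      rw [zpow_neg, one_div]
      exact inv_anti₀ (by norm_num) hl
    have h3 : 1 ≤ β ^ (l : ℤ) - β ^ (-(l : ℤ)) := by linarith
    have := hs.one_le
    nlinarith
  rel := by
    have h0 : β ≠ 0 := by linarith
    obtain ⟨s, φ, hs1, hr⟩ := hs.rel
    refine ⟨-s, φ + π / 2, ?_, fun m => ?_⟩
    · rcases hs1 with h | h
      · right; rw [h]
      · left; rw [h]; norm_num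
    · obtain ⟨n1, hn1⟩ := hr (m + l)
      obtain ⟨n2, hn2⟩ := hr (m - l)
      refine ⟨n1 - n2, ?_⟩
      have e1 := x_step h0 t m l
      have e2 := x_step h0 t (-m) l
      have e3 := St.z_step (θ := θ) (a := a) (φ := φ) m l
      rw [e1, e2, ← e3]
      have e4 : -m + (l : ℤ) = -(m - l) := by ring
      have e5 : -m - (l : ℤ) = -(m + l) := by ring
      rw [e4, e5]
      push_cast at hn1 hn2 ⊢
      rw [← hn1, ← hn2]
      ring

/-- positivity -/
lemma St.pos {β θ t a : ℝ} (hint : IsIntegral ℤ β) (hint' : IsIntegral ℤ β⁻¹)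
    (hs : St β θ t a) (m : ℤ) : 0 < |cc (t * β ^ m)| := by
  rw [abs_pos]
  intro h
  unfold cc at h
  rw [Real.cos_eq_zero_iff] at h
  obtain ⟨k, hk⟩ := h
  have hpi := Real.pi_pos
  have h2 : t * β ^ m = (((2 * k + 1 : ℤ) : ℚ) / 4 : ℚ) := by
    push_cast
    have : 2 * π * (t * β ^ m) = 2 * π * ((2 * k + 1) / 4) := by
      rw [hk]; ring
    exact mul_left_cancel₀ (by positivity) this
  have h3 : IsIntegral ℤ (t * β ^ m) := by
    refine hs.int.mul ?_
    rcases Int.eq_nat_or_neg m with ⟨n, rfl | rfl⟩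
    · rw [zpow_natCast]; exact hint.pow n
    · rw [zpow_neg, zpow_natCast, ← inv_pow]; exact hint'.pow n
  rw [h2] at h3
  have h4 : IsIntegral ℤ (((2 * k + 1 : ℤ) : ℚ) / 4 : ℚ) := by
    have : ((((2 * k + 1 : ℤ) : ℚ) / 4 : ℚ) : ℝ) = algebraMap ℚ ℝ (((2 * k + 1 : ℤ) : ℚ) / 4 : ℚ) := rfl
    rw [this] at h3
    exact (isIntegral_algebraMap_iff (algebraMap ℚ ℝ).injective).1 h3
  obtain ⟨n, hn⟩ := IsIntegrallyClosed.isIntegral_iff.1 h4
  have h5 : (n : ℚ) = ((2 * k + 1 : ℤ) : ℚ) / 4 := by simpa using hn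
  have h6 : (4 * n : ℚ) = ((2 * k + 1 : ℤ) : ℚ) := by rw [h5]; ring
  have h7 : 4 * n = 2 * k + 1 := by exact_mod_cast h6
  omega

/-- far estimate -/
lemma St.far {β θ t a : ℝ} (h1 : 1 < β) (hs : St β θ t a) (m : ℤ) :
    ∃ n : ℤ, |t * β ^ m - n| ≤ t * β ^ (-|m|) + |a| := by
  have hb : 0 < β := by linarith
  have ht : 0 < t := by linarith [hs.one_le]
  rcases le_total m 0 with hm | hm
  · refine ⟨0, ?_⟩
    rw [abs_of_nonpos hm]
    have : 0 ≤ t * β ^ m := by positivity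
    rw [neg_neg, Int.cast_zero, sub_zero, abs_of_nonneg this]
    linarith [abs_nonneg a]
  · obtain ⟨s, φ, hs1, hr⟩ := hs.rel
    obtain ⟨n, hn⟩ := hr m
    refine ⟨n, ?_⟩
    rw [abs_of_nonneg hm]
    have e : t * β ^ m - n = -(s * (t * β ^ (-m))) - a * Real.cos (m * θ + φ) := by
      rw [← hn]; ring
    rw [e]
    have hsabs : |s| = 1 := by rcases hs1 with h | h <;> simp [h]
    calc |-(s * (t * β ^ (-m))) - a * Real.cos (m * θ + φ)|
        ≤ |-(s * (t * β ^ (-m)))| + |a * Real.cos (m * θ + φ)| := abs_sub _ _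
      _ ≤ t * β ^ (-m) + |a| := by
        rw [abs_neg, abs_mul s, hsabs, one_mul, abs_mul a]
        have h3 : 0 ≤ t * β ^ (-m) := by positivity
        rw [abs_of_nonneg h3]
        have h4 := Real.abs_cos_le_one (m * θ + φ)
        have h5 := abs_nonneg a
        nlinarith

/-- step inequality -/
lemma St.step_ge {β θ t a : ℝ} (h1 : 1 < β) (hs : St β θ t a) (l : ℕ) (m : ℤ) :
    |cc (t * β ^ ((l : ℤ) - |m|))| - 2 * π * (t * β ^ (-(l : ℤ)) + |2 * a * Real.sin (l * θ)|) ≤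
      |cc (t * (β ^ (l : ℤ) - β ^ (-(l : ℤ))) * β ^ m)| := by
  have h0 : β ≠ 0 := by linarith
  have hb : 0 < β := by linarith
  have ht : 0 < t := by linarith [hs.one_le]
  rw [x_step h0 t m l]
  rcases le_or_gt 0 m with hm | hm
  · obtain ⟨s, φ, hs1, hr⟩ := hs.rel
    obtain ⟨n1, hn1⟩ := hr (m + l)
    obtain ⟨n2, hn2⟩ := hr (m - l)
    have hsabs : |s| = 1 := by rcases hs1 with h | h <;> simp [h]
    have e3 := St.z_step (θ := θ) (a := a) (φ := φ) m l
    -- |cc (s * x)| = |cc x|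
    have hcs : |cc (s * (t * β ^ ((l : ℤ) - |m|)))| = |cc (t * β ^ ((l : ℤ) - |m|))| := by
      rcases hs1 with h | h
      · rw [h, one_mul]
      · rw [h, neg_one_mul, bcc_neg]
    rw [← hcs]
    apply abs_cc_ge_sub _ _ _ (n1 - n2)
    rw [abs_of_nonneg hm]
    have e4 : -(m - (l : ℤ)) = l - m := by ring
    rw [e4] at hn2
    have e5 : t * β ^ (m + (l : ℤ)) - t * β ^ (m - (l : ℤ)) - s * (t * β ^ ((l : ℤ) - m)) -
        ((n1 - n2 : ℤ) : ℝ) = -(s * (t * β ^ (-(m + (l : ℤ))))) -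
        (2 * a * Real.sin (l * θ)) * Real.cos (m * θ + (φ + π / 2)) := by
      rw [← e3]
      push_cast at hn1 hn2 ⊢
      rw [← hn1, ← hn2]
      ring
    rw [e5]
    have hle : β ^ (-(m + (l : ℤ))) ≤ β ^ (-(l : ℤ)) := by
      apply zpow_le_zpow_right₀ h1.le
      omega
    calc |-(s * (t * β ^ (-(m + (l : ℤ))))) -
        (2 * a * Real.sin (l * θ)) * Real.cos (m * θ + (φ + π / 2))|
        ≤ |-(s * (t * β ^ (-(m + (l : ℤ)))))| +
          |(2 * a * Real.sin (l * θ)) * Real.cos (m * θ + (φ + π / 2))| := abs_sub _ _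
      _ ≤ t * β ^ (-(l : ℤ)) + |2 * a * Real.sin (l * θ)| := by
        rw [abs_neg, abs_mul, hsabs, one_mul, abs_mul (2 * a * Real.sin (l * θ))]
        have h3 : 0 ≤ t * β ^ (-(m + (l : ℤ))) := by positivity
        rw [abs_of_nonneg h3]
        have h4 := Real.abs_cos_le_one (m * θ + (φ + π / 2))
        have h5 := abs_nonneg (2 * a * Real.sin (l * θ))
        have h6 := mul_le_mul_of_nonneg_left hle ht.le
        nlinarith
  · have h3 : |t * β ^ (m + (l : ℤ)) - t * β ^ (m - (l : ℤ)) - t * β ^ ((l : ℤ) - |m|) -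
        ((0 : ℤ) : ℝ)| ≤ t * β ^ (-(l : ℤ)) + |2 * a * Real.sin (l * θ)| := by
      rw [abs_of_neg hm]
      have e : (l : ℤ) - -m = m + l := by ring
      rw [e, Int.cast_zero, sub_zero]
      have e2 : t * β ^ (m + (l : ℤ)) - t * β ^ (m - (l : ℤ)) - t * β ^ (m + (l : ℤ)) =
        -(t * β ^ (m - (l : ℤ))) := by ring
      rw [e2, abs_neg]
      have h3 : 0 ≤ t * β ^ (m - (l : ℤ)) := by positivity
      rw [abs_of_nonneg h3]
      have hle : β ^ (m - (l : ℤ)) ≤ β ^ (-(l : ℤ)) := by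
        apply zpow_le_zpow_right₀ h1.le
        omega
      have h6 := mul_le_mul_of_nonneg_left hle ht.le
      have h5 := abs_nonneg (2 * a * Real.sin (l * θ))
      linarith
    exact abs_cc_ge_sub _ _ _ 0 h3

end Crest.Agent.R104
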