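import Crest.Agent.R104.B1

/-!
Task B, part 2: Dirichlet, costs and their sums.
-/

set_option autoImplicit false

namespace Crest.Agent.R104

open scoped Real

lemma abs_sin_nat_mul_le (n : ℕ) (x : ℝ) : |Real.sin (n * x)| ≤ n * |Real.sin x| := by
  induction n with
  | zero => simp
  | succ n ih =>
    have e : ((n + 1 : ℕ) : ℝ) * x = n * x + x := by push_cast; ring
    rw [e, Real.sin_add]
    have h1 := Real.abs_cos_le_one x
    have h2 := Real.abs_cos_le_one (n * x)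
    calc |Real.sin (n * x) * Real.cos x + Real.cos (n * x) * Real.sin x|
        ≤ |Real.sin (n * x) * Real.cos x| + |Real.cos (n * x) * Real.sin x| := abs_add_le _ _
      _ ≤ |Real.sin (n * x)| + |Real.sin x| := by
        rw [abs_mul, abs_mul]
        have h3 := abs_nonneg (Real.sin (n * x))
        have h4 := abs_nonneg (Real.sin x)
        nlinarith
      _ ≤ n * |Real.sin x| + |Real.sin x| := by linarith
      _ = ((n + 1 : ℕ) : ℝ) * |Real.sin x| := by push_cast; ring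

lemma abs_sin_le_of_near (x : ℝ) (n : ℤ) : |Real.sin (π * x)| ≤ π * |x - n| := by
  have h1 : |Real.sin (π * x)| = |Real.sin (π * x - n * π)| := by
    rw [Real.sin_sub_int_mul_pi, abs_mul]
    have : |((-1 : ℝ)) ^ n| = 1 := by
      rw [abs_zpow]; simp
    rw [this, one_mul]
  rw [h1]
  have h2 : π * x - n * π = π * (x - n) := by ring
  rw [h2]
  calc |Real.sin (π * (x - n))| ≤ |π * (x - n)| := Real.abs_sin_le_abs
    _ = π * |x - n| := by rw [abs_mul, abs_of_pos Real.pi_pos]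

lemma dirichlet_sin (θ e : ℝ) (he : 0 < e) :
    ∃ j : ℕ, 1 ≤ j ∧ |2 * Real.sin (j * θ)| ≤ e ∧ (j : ℝ) ≤ 2 * π / e + 1 := by
  have hpi := Real.pi_pos
  have hpos : 0 < 2 * π / e := by positivity
  have hn : 0 < ⌈2 * π / e⌉₊ := Nat.ceil_pos.2 hpos
  obtain ⟨k, hk0, hk1, hk⟩ := Real.exists_nat_abs_mul_sub_round_le (θ / π) hn
  refine ⟨k, hk0, ?_, ?_⟩
  · have h1 := abs_sin_le_of_near (k * (θ / π)) (round (k * (θ / π)))
    have h2 : π * (k * (θ / π)) = k * θ := by field_simp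
    rw [h2] at h1
    have h3 : 2 * π / e ≤ (⌈2 * π / e⌉₊ : ℝ) := Nat.le_ceil _
    have h4 : (1 : ℝ) / ((⌈2 * π / e⌉₊ : ℝ) + 1) ≤ e / (2 * π) := by
      rw [div_le_div_iff₀ (by positivity) (by positivity)]
      have h5 : 2 * π ≤ e * (⌈2 * π / e⌉₊ : ℝ) := by
        rw [div_le_iff₀ he] at h3
        linarith
      nlinarith
    rw [abs_mul, abs_two]
    calc 2 * |Real.sin (k * θ)| ≤ 2 * (π * |k * (θ / π) - round (k * (θ / π))|) := by linarith
      _ ≤ 2 * (π * (e / (2 * π))) := by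
        have := hk.trans h4
        have h6 := mul_le_mul_of_nonneg_left this hpi.le
        linarith
      _ = e := by field_simp
  · have h3 : (⌈2 * π / e⌉₊ : ℝ) < 2 * π / e + 1 := Nat.ceil_lt_add_one hpos.le
    have h4 : (k : ℝ) ≤ (⌈2 * π / e⌉₊ : ℝ) := by exact_mod_cast hk1
    linarith

lemma dirichlet_sin_min (θ e : ℝ) (he : 0 < e) :
    ∃ j : ℕ, 1 ≤ j ∧ |2 * Real.sin (j * θ)| ≤ e ∧ (j : ℝ) ≤ 2 * π / e + 1 ∧
      ∀ i : ℕ, 1 ≤ i → i < j → e < |2 * Real.sin (i * θ)| := by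
  classical
  obtain ⟨j0, h1, h2, h3⟩ := dirichlet_sin θ e he
  have hex : ∃ j : ℕ, 1 ≤ j ∧ |2 * Real.sin (j * θ)| ≤ e := ⟨j0, h1, h2⟩
  refine ⟨Nat.find hex, (Nat.find_spec hex).1, (Nat.find_spec hex).2, ?_, ?_⟩
  · have : Nat.find hex ≤ j0 := Nat.find_min' hex ⟨h1, h2⟩
    have h4 : (Nat.find hex : ℝ) ≤ j0 := by exact_mod_cast this
    linarith
  · intro i hi1 hi2
    have := Nat.find_min hex hi2
    push Not at this
    exact this hi1

/-- cost -/
noncomputable def cost (β t : ℝ) (m : ℤ) : ℝ := -Real.log |cc (t * β ^ m)|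

lemma cost_nonneg (β t : ℝ) (m : ℤ) : 0 ≤ cost β t m := by
  unfold cost
  have := Real.log_nonpos (abs_nonneg (cc (t * β ^ m))) (babs_cc_le_one _)
  linarith

lemma neg_log_one_sub_le (u : ℝ) (h0 : 0 ≤ u) (h1 : u ≤ 1 / 2) : -Real.log (1 - u) ≤ 2 * u := by
  have hpos : 0 < 1 - u := by linarith
  have h := Real.one_sub_inv_le_log_of_pos hpos
  have h2 : (1 - u)⁻¹ ≤ 1 + 2 * u := by
    rw [inv_le_comm₀ hpos (by positivity), inv_le_iff_one_le_mul₀ (by positivity)]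
    nlinarith
  linarith

lemma cost_far {β t : ℝ} {m : ℤ} {n : ℤ} {d : ℝ} (h : |t * β ^ m - n| ≤ d)
    (hd : 2 * π ^ 2 * d ^ 2 ≤ 1 / 2) : cost β t m ≤ 4 * π ^ 2 * d ^ 2 := by
  have h1 := cc_ge_of_near _ d n h
  have h2 := neg_log_one_sub_le (2 * π ^ 2 * d ^ 2) (by positivity) hd
  unfold cost
  have h3 : Real.log (1 - 2 * π ^ 2 * d ^ 2) ≤ Real.log |cc (t * β ^ m)| :=
    Real.log_le_log (by linarith) h1
  linarith

lemma cost_step {β t t' f η : ℝ} {m j : ℤ} (hf : 0 < f) (hG : f ≤ |cc (t * β ^ j)|)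
    (hη0 : 0 ≤ η) (hη : η ≤ f / 2) (h : |cc (t * β ^ j)| - η ≤ |cc (t' * β ^ m)|) :
    cost β t' m ≤ cost β t j + 2 * (η / f) := by
  unfold cost
  have hGpos : 0 < |cc (t * β ^ j)| := lt_of_lt_of_le hf hG
  have hu : η / f ≤ 1 / 2 := by rw [div_le_iff₀ hf]; linarith
  have hu0 : 0 ≤ η / f := by positivity
  have h1 : |cc (t * β ^ j)| * (1 - η / f) ≤ |cc (t' * β ^ m)| := by
    have h2 : η ≤ |cc (t * β ^ j)| * (η / f) := by
      rw [← mul_div_assoc, le_div_iff₀ hf]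
      nlinarith
    nlinarith
  have h3 : Real.log (|cc (t * β ^ j)| * (1 - η / f)) ≤ Real.log |cc (t' * β ^ m)| :=
    Real.log_le_log (by apply mul_pos hGpos; linarith) h1
  rw [Real.log_mul hGpos.ne' (by linarith)] at h3
  have h4 := neg_log_one_sub_le (η / f) hu0 hu
  linarith

lemma sum_inj_le (s T : Finset ℤ) (g : ℤ → ℤ) (h : ℤ → ℝ) (h0 : ∀ j, 0 ≤ h j)
    (hg : ∀ x ∈ s, g x ∈ T) (hinj : Set.InjOn g s) :
    ∑ m ∈ s, h (g m) ≤ ∑ j ∈ T, h j := by
  rw [← Finset.sum_image (f := h) hinj]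
  apply Finset.sum_le_sum_of_subset_of_nonneg
  · intro x hx
    rw [Finset.mem_image] at hx
    obtain ⟨y, hy, rfl⟩ := hx
    exact hg y hy
  · intro i _ _; exact h0 i

lemma sum_reflect_le (l K : ℕ) (hl : l ≤ K) (h : ℤ → ℝ) (h0 : ∀ j, 0 ≤ h j) :
    ∑ m ∈ Finset.Icc (-(K : ℤ)) K, h (l - |m|) ≤ 2 * ∑ j ∈ Finset.Icc (-(K : ℤ)) K, h j := by
  have hsplit : Finset.Icc (-(K : ℤ)) K = Finset.Icc (0 : ℤ) K ∪ Finset.Icc (-(K : ℤ)) (-1) := by
    ext x; simp only [Finset.mem_Icc, Finset.mem_union]; omega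
  have hdisj : Disjoint (Finset.Icc (0 : ℤ) K) (Finset.Icc (-(K : ℤ)) (-1)) := by
    rw [Finset.disjoint_left]; intro x hx hy
    simp only [Finset.mem_Icc] at hx hy; omega
  have e1 : ∑ m ∈ Finset.Icc (0 : ℤ) K, h (l - |m|) = ∑ m ∈ Finset.Icc (0 : ℤ) K, h (l - m) := by
    apply Finset.sum_congr rfl
    intro x hx
    rw [Finset.mem_Icc] at hx
    rw [abs_of_nonneg hx.1]
  have e2 : ∑ m ∈ Finset.Icc (-(K : ℤ)) (-1), h (l - |m|) =
      ∑ m ∈ Finset.Icc (-(K : ℤ)) (-1), h (l + m) := by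
    apply Finset.sum_congr rfl
    intro x hx
    rw [Finset.mem_Icc] at hx
    rw [abs_of_nonpos (by omega), sub_neg_eq_add]
  have h1 : ∑ m ∈ Finset.Icc (0 : ℤ) K, h (l - m) ≤ ∑ j ∈ Finset.Icc (-(K : ℤ)) K, h j := by
    apply sum_inj_le _ _ (fun m => (l : ℤ) - m) h h0
    · intro x hx; simp only [Finset.mem_Icc] at hx ⊢; omega
    · intro x _ y _ hxy; simp only at hxy; omega
  have h2 : ∑ m ∈ Finset.Icc (-(K : ℤ)) (-1), h (l + m) ≤ ∑ j ∈ Finset.Icc (-(K : ℤ)) K, h j := by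
    apply sum_inj_le _ _ (fun m => (l : ℤ) + m) h h0
    · intro x hx; simp only [Finset.mem_Icc] at hx ⊢; omega
    · intro x _ y _ hxy; simp only at hxy; omega
  have h3 : ∑ m ∈ Finset.Icc (-(K : ℤ)) K, h (l - |m|) =
      ∑ m ∈ Finset.Icc (0 : ℤ) K, h (l - |m|) + ∑ m ∈ Finset.Icc (-(K : ℤ)) (-1), h (l - |m|) := by
    conv_lhs => rw [hsplit]
    rw [Finset.sum_union hdisj]
  rw [h3, e1, e2]
  linarith

/-- the far part of the cost sum -/
lemma sum_far_le {K K' : ℕ} (hK : K ≤ K') (h : ℤ → ℝ) (c : ℝ) (hc : 0 ≤ c)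
    (hfar : ∀ j : ℤ, (K : ℤ) < |j| → h j ≤ c) :
    ∑ j ∈ Finset.Icc (-(K' : ℤ)) K', h j ≤
      ∑ j ∈ Finset.Icc (-(K : ℤ)) K, h j + (2 * K' + 1) * c := by
  have hsub : Finset.Icc (-(K : ℤ)) K ⊆ Finset.Icc (-(K' : ℤ)) K' := by
    intro x hx; simp only [Finset.mem_Icc] at hx ⊢; omega
  rw [← Finset.sum_sdiff hsub]
  have h1 : ∑ j ∈ Finset.Icc (-(K' : ℤ)) K' \ Finset.Icc (-(K : ℤ)) K, h j ≤
      (2 * K' + 1) * c := by
    calc ∑ j ∈ Finset.Icc (-(K' : ℤ)) K' \ Finset.Icc (-(K : ℤ)) K, h j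
        ≤ (Finset.Icc (-(K' : ℤ)) K' \ Finset.Icc (-(K : ℤ)) K).card • c := by
          apply Finset.sum_le_card_nsmul
          intro x hx
          apply hfar
          simp only [Finset.mem_sdiff, Finset.mem_Icc] at hx
          rcases le_or_gt 0 x with h | h
          · rw [abs_of_nonneg h]; omega
          · rw [abs_of_neg h]; omega
      _ ≤ (2 * K' + 1) * c := by
          rw [nsmul_eq_mul]
          apply mul_le_mul_of_nonneg_right _ hc
          have : (Finset.Icc (-(K' : ℤ)) K' \ Finset.Icc (-(K : ℤ)) K).card ≤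
              (Finset.Icc (-(K' : ℤ)) K').card := Finset.card_le_card Finset.sdiff_subset
          have h2 : (Finset.Icc (-(K' : ℤ)) K').card = 2 * K' + 1 := by
            rw [Int.card_Icc]; omega
          rw [h2] at this
          exact_mod_cast this
  linarith

end Crest.Agent.R104
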