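import Crest.Agent.R104.B2

/-!
Task B, part 3: the main inductive step.
-/

set_option autoImplicit false

namespace Crest.Agent.R104

open scoped Real

/-- All largeness conditions on `S`. -/
structure Big (β f S : ℝ) : Prop where
  pos : 1 ≤ S
  c1 : 5 / 2 * S ≤ Real.exp (S / 10) * Real.log β / 2
  c2 : 4 * π + 1 ≤ Real.exp (3 / 2 * S)
  c4 : 8 * Real.exp (S / 10) ≤ Real.exp (S / 4)
  c5 : Real.exp (6 / 5 * S) + 64 * Real.exp (17 / 10 * S) + (3 / 2 * S / Real.log β + 1) ≤
        Real.exp (9 / 5 * S)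
  c6 : 8 * π ^ 2 * Real.exp (-(2 * S)) ≤ 1 / 2
  c7 : 2 * ((2 * Real.exp (9 / 5 * S) + 1) * (16 * π ^ 2 * Real.exp (-(2 * S)))) +
        2 * ((2 * Real.exp (9 / 5 * S) + 1) * (2 * (4 * π * Real.exp (-(5 / 2 * S)) / f))) ≤ 1
  c9 : 4 * π * Real.exp (-(5 / 2 * S)) ≤ f / 2

/-- Inductive invariant. -/
def Inv (β θ f c S R : ℝ) : Prop :=
  ∃ (t a : ℝ) (j r K : ℕ), St β θ t a ∧ |a| ≤ Real.exp (-S) ∧
    (∀ m : ℤ, f + Real.exp (-S) ≤ |cc (t * β ^ m)|) ∧
    t ≤ β ^ (2 * (r * j)) ∧ 4 * (r : ℝ) ≤ Real.exp (S / 10) ∧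
    (∀ i : ℕ, 1 ≤ i → i < j → Real.exp (-(3 / 2 * S)) < |2 * Real.sin (i * θ)|) ∧
    t * β ^ (-(K : ℤ)) ≤ Real.exp (-S) ∧ (K : ℝ) ≤ Real.exp (c * S) ∧
    ∑ m ∈ Finset.Icc (-(K : ℤ)) K, cost β t m ≤ R

lemma Inv.step {β θ f S R : ℝ} (h1 : 1 < β) (hint : IsIntegral ℤ β) (hint' : IsIntegral ℤ β⁻¹)
    (hf : 0 < f) (hS : Big β f S) (h : Inv β θ f (6 / 5) S R) :
    Inv β θ f (18 / 25) (5 / 2 * S) (2 * R + 1) := by
  obtain ⟨t, a, j0, r0, K, hs, ha, hG, htβ, hr0, hj0, htK, hKS, hR⟩ := h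
  have hβpos : 0 < β := by linarith
  have hpi := Real.pi_pos
  have hlog : 0 < Real.log β := Real.log_pos h1
  have hS1 := hS.pos
  have ht1 := hs.one_le
  have htpos : 0 < t := by linarith
  -- choose r
  set r : ℕ := ⌈Real.exp (S / 10)⌉₊ with hr
  have hr_ge : Real.exp (S / 10) ≤ r := Nat.le_ceil _
  have hE1 : 1 ≤ Real.exp (S / 10) := Real.one_le_exp (by linarith)
  have hr_le : (r : ℝ) ≤ 2 * Real.exp (S / 10) := by
    have := Nat.ceil_lt_add_one (Real.exp_pos (S / 10)).le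
    have h2 : (r : ℝ) < Real.exp (S / 10) + 1 := this
    linarith
  have hr1 : (1 : ℝ) ≤ r := hE1.trans hr_ge
  have hrpos : (0 : ℝ) < r := by linarith
  have hrN : 1 ≤ r := by exact_mod_cast hr1
  clear_value r
  set e : ℝ := Real.exp (-(3 / 2 * S)) / r with he
  clear_value e
  have hepos : 0 < e := by rw [he]; positivity
  obtain ⟨j, hj1, hje, hjle, hjmin⟩ := dirichlet_sin_min θ e hepos
  have he_le : e ≤ Real.exp (-(3 / 2 * S)) := by
    rw [he]; exact div_le_self (Real.exp_pos _).le hr1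
  -- j ≥ j0
  have hjj0 : j0 ≤ j := by
    by_contra hcon
    push Not at hcon
    have := hj0 j hj1 hcon
    linarith
  set l : ℕ := r * j with hl
  have hlr : r ≤ l := Nat.le_mul_of_pos_right r hj1
  clear_value l
  have hlr' : (r : ℝ) ≤ l := by exact_mod_cast hlr
  -- 4 r0 j0 ≤ l
  have hl4 : 4 * (r0 * j0) ≤ l := by
    have h4 : 4 * (r0 : ℝ) ≤ r := hr0.trans hr_ge
    have h5 : 4 * r0 ≤ r := by exact_mod_cast h4
    calc 4 * (r0 * j0) = (4 * r0) * j0 := by ring
      _ ≤ r * j := Nat.mul_le_mul h5 hjj0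
      _ = l := hl.symm
  -- β^l big: `β ^ (-l/2) ≤ exp (-5/2 S)`
  have hlS : 5 / 2 * S ≤ l * Real.log β / 2 := by
    have h5 := hS.c1
    have h6 : Real.exp (S / 10) * Real.log β / 2 ≤ l * Real.log β / 2 := by
      have : Real.exp (S / 10) ≤ l := hr_ge.trans hlr'
      have := mul_le_mul_of_nonneg_right this hlog.le
      linarith
    linarith
  have hpow_exp : ∀ n : ℕ, β ^ n = Real.exp (n * Real.log β) := by
    intro n
    rw [mul_comm, Real.exp_mul, Real.exp_log hβpos, Real.rpow_natCast]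
  have hzpow_exp : ∀ n : ℤ, β ^ n = Real.exp (n * Real.log β) := by
    intro n
    rw [mul_comm, Real.exp_mul, Real.exp_log hβpos, Real.rpow_intCast]
  have hη1 : t * β ^ (-(l : ℤ)) ≤ Real.exp (-(5 / 2 * S)) := by
    calc t * β ^ (-(l : ℤ)) ≤ β ^ (2 * (r0 * j0)) * β ^ (-(l : ℤ)) := by
          apply mul_le_mul_of_nonneg_right htβ (by positivity)
      _ = Real.exp ((2 * (r0 * j0) : ℕ) * Real.log β + ((-(l : ℤ) : ℤ) : ℝ) * Real.log β) := by
          rw [hpow_exp, hzpow_exp, ← Real.exp_add]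
      _ ≤ Real.exp (-(5 / 2 * S)) := by
          apply Real.exp_le_exp.2
          have h7 : ((2 * (r0 * j0) : ℕ) : ℝ) ≤ l / 2 := by
            have : ((4 * (r0 * j0) : ℕ) : ℝ) ≤ l := by exact_mod_cast hl4
            push_cast at this ⊢
            linarith
          push_cast at h7 ⊢
          have h8 := mul_le_mul_of_nonneg_right h7 hlog.le
          nlinarith
  -- new a
  have ha' : |2 * a * Real.sin (l * θ)| ≤ Real.exp (-(5 / 2 * S)) := by
    have h3 : |2 * Real.sin (l * θ)| ≤ Real.exp (-(3 / 2 * S)) := by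
      have h4 := abs_sin_nat_mul_le r (j * θ)
      have e1 : (r : ℝ) * (j * θ) = l * θ := by rw [hl]; push_cast; ring
      rw [e1] at h4
      rw [abs_mul, abs_two] at hje ⊢
      calc 2 * |Real.sin (l * θ)| ≤ r * (2 * |Real.sin (j * θ)|) := by linarith
        _ ≤ r * e := mul_le_mul_of_nonneg_left hje hrpos.le
        _ = Real.exp (-(3 / 2 * S)) := by rw [he]; field_simp
    calc |2 * a * Real.sin (l * θ)| = |a| * |2 * Real.sin (l * θ)| := by
          rw [← abs_mul]; congr 1; ring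
      _ ≤ Real.exp (-S) * Real.exp (-(3 / 2 * S)) :=
          mul_le_mul ha h3 (abs_nonneg _) (Real.exp_pos _).le
      _ = Real.exp (-(5 / 2 * S)) := by rw [← Real.exp_add]; congr 1; ring
  -- 2 ≤ β ^ l
  have hl2 : 2 ≤ β ^ (l : ℤ) := by
    rw [hzpow_exp]
    have h3 : Real.exp 1 ≤ Real.exp (((l : ℤ) : ℝ) * Real.log β) := by
      apply Real.exp_le_exp.2
      push_cast
      linarith
    have h4 := Real.add_one_le_exp (1 : ℝ)
    linarith
  set t' : ℝ := t * (β ^ (l : ℤ) - β ^ (-(l : ℤ))) with ht'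
  have hs' : St β θ t' (2 * a * Real.sin (l * θ)) := hs.step h1 hint hint' l hl2
  set η : ℝ := 2 * π * (t * β ^ (-(l : ℤ)) + |2 * a * Real.sin (l * θ)|) with hη
  have hη0 : 0 ≤ η := by positivity
  clear_value t' η
  have hηle : η ≤ 4 * π * Real.exp (-(5 / 2 * S)) := by
    rw [hη]
    have := add_le_add hη1 ha'
    have h3 := mul_le_mul_of_nonneg_left this Real.two_pi_pos.le
    linarith
  have hηf : η ≤ f / 2 := hηle.trans hS.c9
  have hstep : ∀ m : ℤ, |cc (t * β ^ ((l : ℤ) - |m|))| - η ≤ |cc (t' * β ^ m)| := by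
    intro m
    have := hs.step_ge h1 l m
    rwa [← ht', ← hη] at this
  -- t' ≤ t β^l
  have ht'le : t' ≤ t * β ^ l := by
    rw [ht', zpow_natCast]
    apply mul_le_mul_of_nonneg_left _ htpos.le
    have : 0 ≤ β ^ (-(l : ℤ)) := by positivity
    linarith
  -- K'
  set M : ℕ := ⌈3 / 2 * S / Real.log β⌉₊ with hM
  have hM_ge : 3 / 2 * S / Real.log β ≤ M := Nat.le_ceil _
  have hM_le : (M : ℝ) ≤ 3 / 2 * S / Real.log β + 1 :=
    (Nat.ceil_lt_add_one (by positivity)).le
  set K' : ℕ := K + l + M with hK'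
  clear_value K' M
  have hl_le : (l : ℝ) ≤ 64 * Real.exp (17 / 10 * S) := by
    have h3 : (l : ℝ) = r * j := by rw [hl]; push_cast; ring
    have h4 : 2 * π / e = 2 * π * r * Real.exp (3 / 2 * S) := by
      rw [he, Real.exp_neg]; field_simp
    rw [h4] at hjle
    have hE3 : 1 ≤ Real.exp (3 / 2 * S) := Real.one_le_exp (by linarith)
    have h5 : (j : ℝ) ≤ 8 * r * Real.exp (3 / 2 * S) := by
      have h6 : 1 ≤ r * Real.exp (3 / 2 * S) := by nlinarith
      have h7 : π ≤ 3.15 := Real.pi_lt_d2.le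
      have h8 : 2 * π * r * Real.exp (3 / 2 * S) ≤ 6.3 * (r * Real.exp (3 / 2 * S)) := by
        have : 0 < r * Real.exp (3 / 2 * S) := by positivity
        nlinarith
      nlinarith
    rw [h3]
    calc (r : ℝ) * j ≤ r * (8 * r * Real.exp (3 / 2 * S)) :=
          mul_le_mul_of_nonneg_left h5 hrpos.le
      _ = 8 * (r * r) * Real.exp (3 / 2 * S) := by ring
      _ ≤ 8 * ((2 * Real.exp (S / 10)) * (2 * Real.exp (S / 10))) * Real.exp (3 / 2 * S) := by
          have h9 : (r : ℝ) * r ≤ (2 * Real.exp (S / 10)) * (2 * Real.exp (S / 10)) :=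
            mul_le_mul hr_le hr_le hrpos.le (by positivity)
          have := mul_le_mul_of_nonneg_right h9 (Real.exp_pos (3 / 2 * S)).le
          nlinarith
      _ = 32 * Real.exp (17 / 10 * S) := by
          have : Real.exp (17 / 10 * S) = Real.exp (S / 10) * Real.exp (S / 10) *
              Real.exp (3 / 2 * S) := by
            rw [← Real.exp_add, ← Real.exp_add]; congr 1; ring
          rw [this]; ring
      _ ≤ 64 * Real.exp (17 / 10 * S) := by
          have := Real.exp_pos (17 / 10 * S)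
          linarith
  have hK'_le : (K' : ℝ) ≤ Real.exp (9 / 5 * S) := by
    rw [hK']; push_cast
    have := hS.c5
    linarith
  have htK' : t' * β ^ (-(K' : ℤ)) ≤ Real.exp (-(5 / 2 * S)) := by
    have hb : β ^ (-(M : ℤ)) ≤ Real.exp (-(3 / 2 * S)) := by
      rw [hzpow_exp]
      apply Real.exp_le_exp.2
      push_cast
      rw [div_le_iff₀ hlog] at hM_ge
      linarith
    have e1 : t * β ^ l * β ^ (-(K' : ℤ)) = (t * β ^ (-(K : ℤ))) * β ^ (-(M : ℤ)) := by
      rw [hK']
      push_cast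
      rw [← zpow_natCast β l, mul_assoc, mul_assoc, ← zpow_add₀ hβpos.ne', ← zpow_add₀ hβpos.ne']
      congr 2; ring
    calc t' * β ^ (-(K' : ℤ)) ≤ t * β ^ l * β ^ (-(K' : ℤ)) :=
          mul_le_mul_of_nonneg_right ht'le (by positivity)
      _ = (t * β ^ (-(K : ℤ))) * β ^ (-(M : ℤ)) := e1
      _ ≤ Real.exp (-S) * Real.exp (-(3 / 2 * S)) :=
          mul_le_mul htK hb (by positivity) (Real.exp_pos _).le
      _ = Real.exp (-(5 / 2 * S)) := by rw [← Real.exp_add]; congr 1; ring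
  -- cost sum
  have hGf : ∀ m : ℤ, f ≤ |cc (t * β ^ m)| := fun m => by
    have := hG m; have := Real.exp_pos (-S); linarith
  have hcost : ∑ m ∈ Finset.Icc (-(K' : ℤ)) K', cost β t' m ≤ 2 * R + 1 := by
    have hterm : ∀ m : ℤ, cost β t' m ≤ cost β t (l - |m|) + 2 * (η / f) := fun m =>
      cost_step hf (hGf _) hη0 hηf (hstep m)
    have hA2 : Real.exp (-S) ^ 2 = Real.exp (-(2 * S)) := by
      rw [← Real.exp_nat_mul]; congr 1; push_cast; ring
    have hfar : ∀ m : ℤ, (K : ℤ) < |m| → cost β t m ≤ 16 * π ^ 2 * Real.exp (-(2 * S)) := by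
      intro m hm
      obtain ⟨n, hn⟩ := hs.far h1 m
      have h3 : t * β ^ (-|m|) + |a| ≤ 2 * Real.exp (-S) := by
        have h4 : t * β ^ (-|m|) ≤ t * β ^ (-(K : ℤ)) := by
          apply mul_le_mul_of_nonneg_left _ htpos.le
          apply zpow_le_zpow_right₀ h1.le
          omega
        linarith
      have h5 := cost_far (hn.trans h3) (by
        have : 2 * π ^ 2 * (2 * Real.exp (-S)) ^ 2 = 8 * π ^ 2 * Real.exp (-(2 * S)) := by
          rw [mul_pow, hA2]; ring
        rw [this]; exact hS.c6)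
      have e1 : 4 * π ^ 2 * (2 * Real.exp (-S)) ^ 2 = 16 * π ^ 2 * Real.exp (-(2 * S)) := by
        rw [mul_pow, hA2]; ring
      rwa [e1] at h5
    have hlK' : l ≤ K' := by rw [hK']; omega
    have hKK' : K ≤ K' := by rw [hK']; omega
    have h10 : ∑ m ∈ Finset.Icc (-(K' : ℤ)) K', cost β t' m ≤
        2 * ∑ m ∈ Finset.Icc (-(K' : ℤ)) K', (cost β t m + 2 * (η / f)) := by
      refine (Finset.sum_le_sum fun m _ => hterm m).trans ?_
      exact sum_reflect_le l K' hlK' (fun m => cost β t m + 2 * (η / f)) (fun m => by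
        have := cost_nonneg β t m
        have : 0 ≤ η / f := by positivity
        linarith)
    have hcard : ((Finset.Icc (-(K' : ℤ)) K').card : ℝ) = 2 * K' + 1 := by
      have : (Finset.Icc (-(K' : ℤ)) K').card = 2 * K' + 1 := by
        rw [Int.card_Icc]; omega
      rw [this]; push_cast; ring
    rw [Finset.sum_add_distrib, Finset.sum_const, nsmul_eq_mul, hcard] at h10
    have h11 := sum_far_le hKK' (fun m => cost β t m) (16 * π ^ 2 * Real.exp (-(2 * S)))
      (by positivity) hfar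
    have h12 : (2 * (K' : ℝ) + 1) * (16 * π ^ 2 * Real.exp (-(2 * S))) ≤
        (2 * Real.exp (9 / 5 * S) + 1) * (16 * π ^ 2 * Real.exp (-(2 * S))) := by
      apply mul_le_mul_of_nonneg_right _ (by positivity)
      linarith
    have h13 : (2 * (K' : ℝ) + 1) * (2 * (η / f)) ≤
        (2 * Real.exp (9 / 5 * S) + 1) * (2 * (4 * π * Real.exp (-(5 / 2 * S)) / f)) := by
      apply mul_le_mul
      · linarith
      · have := div_le_div_of_nonneg_right hηle hf.le
        linarith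
      · positivity
      · positivity
    have h14 := hS.c7
    linarith
  refine ⟨t', _, j, r, K', hs', ha', ?_, ?_, ?_, ?_, htK', ?_, hcost⟩
  · intro m
    have h3 := hstep m
    have h4 := hG ((l : ℤ) - |m|)
    have h5 : (4 * π + 1) * Real.exp (-(5 / 2 * S)) ≤ Real.exp (-S) := by
      have h6 := mul_le_mul_of_nonneg_right hS.c2 (Real.exp_pos (-(5 / 2 * S))).le
      rw [← Real.exp_add] at h6
      have e1 : 3 / 2 * S + -(5 / 2 * S) = -S := by ring
      rwa [e1] at h6
    linarith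
  · calc t' ≤ t * β ^ l := ht'le
      _ ≤ β ^ (2 * (r0 * j0)) * β ^ l := mul_le_mul_of_nonneg_right htβ (by positivity)
      _ = β ^ (2 * (r0 * j0) + l) := by rw [pow_add]
      _ ≤ β ^ (2 * (r * j)) := by
          apply pow_le_pow_right₀ h1.le
          rw [← hl]; omega
  · have h3 := hS.c4
    have e1 : 5 / 2 * S / 10 = S / 4 := by ring
    rw [e1]
    linarith
  · intro i hi1 hi2
    have h3 := hjmin i hi1 hi2
    refine lt_of_le_of_lt ?_ h3
    rw [he, le_div_iff₀ hrpos]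
    have h4 : Real.exp (-(3 / 2 * (5 / 2 * S))) * r ≤
        Real.exp (-(3 / 2 * (5 / 2 * S))) * Real.exp (S / 4) := by
      apply mul_le_mul_of_nonneg_left _ (Real.exp_pos _).le
      have := hS.c4
      have := Real.exp_pos (S / 10)
      linarith
    refine h4.trans ?_
    rw [← Real.exp_add]
    apply Real.exp_le_exp.2
    linarith
  · have e1 : 18 / 25 * (5 / 2 * S) = 9 / 5 * S := by ring
    rw [e1]; exact hK'_le

end Crest.Agent.R104
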