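import Crest.Agent.R104.B3

/-!
Task B, part 4: largeness, first stage, induction, conclusion.
-/

set_option autoImplicit false

namespace Crest.Agent.R104

open scoped Real
open Filter

lemma ev_exp (c ε : ℝ) (hc : 0 < c) (hε : 0 < ε) : ∀ᶠ S : ℝ in atTop, Real.exp (-(c * S)) ≤ ε := by
  have h1 : Tendsto (fun S : ℝ => Real.exp (-(c * S))) atTop (nhds 0) := by
    apply Real.tendsto_exp_neg_atTop_nhds_zero.comp
    exact tendsto_id.const_mul_atTop hc
  exact (h1.eventually (ge_mem_nhds hε))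

lemma ev_lin (c C : ℝ) (hc : 0 < c) : ∀ᶠ S : ℝ in atTop, C ≤ Real.exp (c * S) := by
  have h1 : Tendsto (fun S : ℝ => Real.exp (c * S)) atTop atTop :=
    Real.tendsto_exp_atTop.comp (tendsto_id.const_mul_atTop hc)
  exact h1.eventually_ge_atTop C

lemma ev_mul (c d : ℝ) (hc : 0 < c) (hd : 0 < d) :
    ∀ᶠ S : ℝ in atTop, S ≤ d * Real.exp (c * S) := by
  filter_upwards [eventually_ge_atTop (0 : ℝ), eventually_ge_atTop (2 / (c ^ 2 * d))] with S hS0 hS
  have h1 := Real.quadratic_le_exp_of_nonneg (x := c * S) (by positivity)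
  have h2 : (c * S) ^ 2 / 2 ≤ Real.exp (c * S) := by
    have : 0 ≤ c * S := by positivity
    linarith
  have h3 : d * ((c * S) ^ 2 / 2) ≤ d * Real.exp (c * S) := mul_le_mul_of_nonneg_left h2 hd.le
  rw [div_le_iff₀ (by positivity)] at hS
  nlinarith

lemma ev_big (β f : ℝ) (h1 : 1 < β) (hf : 0 < f) : ∀ᶠ S : ℝ in atTop, Big β f S := by
  have hpi := Real.pi_pos
  have hlog : 0 < Real.log β := Real.log_pos h1
  filter_upwards [eventually_ge_atTop (1 : ℝ), ev_mul (1 / 10) (Real.log β / 5) (by norm_num)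
      (by positivity), ev_lin (3 / 2) (4 * π + 1) (by norm_num), ev_lin (3 / 20) 8 (by norm_num),
      ev_lin (1 / 10) 70 (by norm_num), ev_mul (17 / 10) (2 / 3 * Real.log β) (by norm_num)
      (by positivity), ev_exp 2 (1 / (16 * π ^ 2)) (by norm_num) (by positivity),
      ev_exp (1 / 5) (1 / (200 * π ^ 2)) (by norm_num) (by positivity),
      ev_exp (7 / 10) (f / (100 * π)) (by norm_num) (by positivity),
      ev_exp (5 / 2) (f / (8 * π)) (by norm_num) (by positivity)] with S g1 g2 g3 g4 g5 g6 g7 g8 g9 g10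
  have hS0 : 0 ≤ S := by linarith
  refine ⟨g1, ?_, g3, ?_, ?_, ?_, ?_, ?_⟩
  · have e1 : S / 10 = 1 / 10 * S := by ring
    rw [e1]
    linarith
  · have e1 : Real.exp (S / 4) = Real.exp (S / 10) * Real.exp (3 / 20 * S) := by
      rw [← Real.exp_add]; congr 1; ring
    rw [e1, mul_comm]
    exact mul_le_mul_of_nonneg_left g4 (Real.exp_pos _).le
  · have e1 : Real.exp (9 / 5 * S) = Real.exp (17 / 10 * S) * Real.exp (1 / 10 * S) := by
      rw [← Real.exp_add]; congr 1; ring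
    have h2 := mul_le_mul_of_nonneg_left g5 (Real.exp_pos (17 / 10 * S)).le
    have h3 : Real.exp (6 / 5 * S) ≤ Real.exp (17 / 10 * S) := Real.exp_le_exp.2 (by linarith)
    have h4 : 1 ≤ Real.exp (17 / 10 * S) := Real.one_le_exp (by linarith)
    have h5 : 3 / 2 * S / Real.log β ≤ Real.exp (17 / 10 * S) := by
      rw [div_le_iff₀ hlog]; linarith
    rw [e1]; linarith
  · rw [le_div_iff₀ (by positivity)] at g7
    linarith
  · have hE : 1 ≤ Real.exp (9 / 5 * S) := Real.one_le_exp (by linarith)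
    have e2 : Real.exp (9 / 5 * S) * Real.exp (-(2 * S)) = Real.exp (-(1 / 5 * S)) := by
      rw [← Real.exp_add]; congr 1; ring
    have e3 : Real.exp (9 / 5 * S) * Real.exp (-(5 / 2 * S)) = Real.exp (-(7 / 10 * S)) := by
      rw [← Real.exp_add]; congr 1; ring
    have h3 : 2 * Real.exp (9 / 5 * S) + 1 ≤ 3 * Real.exp (9 / 5 * S) := by linarith
    have p1 : 2 * ((2 * Real.exp (9 / 5 * S) + 1) * (16 * π ^ 2 * Real.exp (-(2 * S)))) ≤ 1 / 2 := by
      calc 2 * ((2 * Real.exp (9 / 5 * S) + 1) * (16 * π ^ 2 * Real.exp (-(2 * S))))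
          ≤ 2 * ((3 * Real.exp (9 / 5 * S)) * (16 * π ^ 2 * Real.exp (-(2 * S)))) := by
            apply mul_le_mul_of_nonneg_left _ (by norm_num)
            exact mul_le_mul_of_nonneg_right h3 (by positivity)
        _ = 96 * π ^ 2 * (Real.exp (9 / 5 * S) * Real.exp (-(2 * S))) := by ring
        _ = 96 * π ^ 2 * Real.exp (-(1 / 5 * S)) := by rw [e2]
        _ ≤ 1 / 2 := by
            rw [le_div_iff₀ (by positivity)] at g8
            have := Real.exp_pos (-(1 / 5 * S))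
            nlinarith
    have p2 : 2 * ((2 * Real.exp (9 / 5 * S) + 1) * (2 * (4 * π * Real.exp (-(5 / 2 * S)) / f))) ≤
        1 / 2 := by
      calc 2 * ((2 * Real.exp (9 / 5 * S) + 1) * (2 * (4 * π * Real.exp (-(5 / 2 * S)) / f)))
          ≤ 2 * ((3 * Real.exp (9 / 5 * S)) * (2 * (4 * π * Real.exp (-(5 / 2 * S)) / f))) := by
            apply mul_le_mul_of_nonneg_left _ (by norm_num)
            exact mul_le_mul_of_nonneg_right h3 (by positivity)
        _ = 48 * π * (Real.exp (9 / 5 * S) * Real.exp (-(5 / 2 * S))) / f := by ring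
        _ = 48 * π * Real.exp (-(7 / 10 * S)) / f := by rw [e3]
        _ ≤ 1 / 2 := by
            rw [le_div_iff₀ (by positivity)] at g9
            rw [div_le_iff₀ hf]
            have := Real.exp_pos (-(7 / 10 * S))
            nlinarith
    linarith
  · rw [le_div_iff₀ (by positivity)] at g10
    linarith

/-- a state with small `a`. -/
lemma exists_small {β θ : ℝ} (h1 : 1 < β) (hint : IsIntegral ℤ β) (hint' : IsIntegral ℤ β⁻¹)
    (hrel : ∀ m : ℤ, ∃ n : ℤ, β ^ m + β ^ (-m) + 2 * Real.cos (m * θ) = n) :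
    ∃ t a : ℝ, St β θ t a ∧ |a| ≤ 1 / 16 := by
  obtain ⟨r, hr⟩ := pow_unbounded_of_one_lt (2 : ℝ) h1
  have hr0 : 1 ≤ r := by
    by_contra hcon
    have : r = 0 := by omega
    rw [this] at hr; norm_num at hr
  have hrR : (1 : ℝ) ≤ r := by exact_mod_cast hr0
  obtain ⟨j, hj1, hj2, -⟩ := dirichlet_sin θ (1 / (32 * r)) (by positivity)
  have hl : 2 ≤ β ^ ((r * j : ℕ) : ℤ) := by
    rw [zpow_natCast]
    calc (2 : ℝ) ≤ β ^ r := hr.le
      _ ≤ β ^ (r * j) := pow_le_pow_right₀ h1.le (Nat.le_mul_of_pos_right r hj1)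
  refine ⟨_, _, (St.init hrel).step h1 hint hint' (r * j) hl, ?_⟩
  have h4 := abs_sin_nat_mul_le r (j * θ)
  have e1 : (r : ℝ) * (j * θ) = ((r * j : ℕ) : ℝ) * θ := by push_cast; ring
  rw [e1] at h4
  rw [abs_mul, abs_two] at hj2
  have h5 : |2 * 2 * Real.sin (((r * j : ℕ) : ℝ) * θ)| = 4 * |Real.sin (((r * j : ℕ) : ℝ) * θ)| := by
    rw [abs_mul]; norm_num
  rw [h5]
  rw [le_div_iff₀ (by positivity)] at hj2
  have h6 : (r : ℝ) * |Real.sin (j * θ)| ≤ 1 / 64 := by
    nlinarith [abs_nonneg (Real.sin (j * θ))]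
  linarith

lemma exists_lower {β θ t a : ℝ} (h1 : 1 < β) (hint : IsIntegral ℤ β) (hint' : IsIntegral ℤ β⁻¹)
    (hs : St β θ t a) (ha : |a| ≤ 1 / 16) : ∃ f : ℝ, 0 < f ∧ ∀ m : ℤ, f ≤ |cc (t * β ^ m)| := by
  have hβpos : 0 < β := by linarith
  have htpos : 0 < t := by linarith [hs.one_le]
  obtain ⟨M, hM⟩ := pow_unbounded_of_one_lt (16 * t) h1
  have hfar : ∀ m : ℤ, (M : ℤ) < |m| → 1 / 2 ≤ |cc (t * β ^ m)| := by
    intro m hm
    obtain ⟨n, hn⟩ := hs.far h1 m
    have h3 : t * β ^ (-|m|) ≤ 1 / 16 := by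
      have h4 : β ^ (-|m|) ≤ β ^ (-(M : ℤ)) := by
        apply zpow_le_zpow_right₀ h1.le; omega
      have h5 : t * β ^ (-(M : ℤ)) ≤ 1 / 16 := by
        rw [zpow_neg, zpow_natCast, ← div_eq_mul_inv, div_le_iff₀ (by positivity)]
        linarith
      exact (mul_le_mul_of_nonneg_left h4 htpos.le).trans h5
    have h6 := cc_ge_of_near _ (1 / 8) n (hn.trans (by linarith))
    have hpi : π < 3.15 := Real.pi_lt_d2
    have hpi0 := Real.pi_pos
    nlinarith
  obtain ⟨m0, hm0, hmin⟩ := Finset.exists_min_image (Finset.Icc (-(M : ℤ)) M)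
    (fun m => |cc (t * β ^ m)|) ⟨0, by simp⟩
  refine ⟨min (1 / 2) |cc (t * β ^ m0)|, lt_min (by norm_num) (hs.pos hint hint' m0), fun m => ?_⟩
  rcases lt_or_ge (M : ℤ) |m| with h | h
  · exact (min_le_left _ _).trans (hfar m h)
  · refine (min_le_right _ _).trans (hmin m ?_)
    rw [Finset.mem_Icc]
    exact abs_le.1 h

lemma exists_first {β θ : ℝ} (h1 : 1 < β) (hint : IsIntegral ℤ β) (hint' : IsIntegral ℤ β⁻¹)
    (hrel : ∀ m : ℤ, ∃ n : ℤ, β ^ m + β ^ (-m) + 2 * Real.cos (m * θ) = n) :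
    ∃ f : ℝ, 0 < f ∧ ∀ᶠ S in atTop, ∃ R : ℝ, 0 ≤ R ∧ Inv β θ f (6 / 5) S R := by
  obtain ⟨t0, a0, hs0, ha0⟩ := exists_small h1 hint hint' hrel
  obtain ⟨f0, hf0, hG0⟩ := exists_lower h1 hint hint' hs0 ha0
  refine ⟨f0 / 2, by positivity, ?_⟩
  have hβpos : 0 < β := by linarith
  have hpi := Real.pi_pos
  have hlog : 0 < Real.log β := Real.log_pos h1
  have htpos : 0 < t0 := by linarith [hs0.one_le]
  obtain ⟨r, hr⟩ := pow_unbounded_of_one_lt (max (max 2 t0) (16 * π * t0 / f0)) h1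
  have hr2 : 2 < β ^ r := lt_of_le_of_lt ((le_max_left _ _).trans (le_max_left _ _)) hr
  have hrt : t0 < β ^ r := lt_of_le_of_lt ((le_max_right _ _).trans (le_max_left _ _)) hr
  have hrf : 16 * π * t0 / f0 < β ^ r := lt_of_le_of_lt (le_max_right _ _) hr
  have hr0 : 1 ≤ r := by
    by_contra hcon
    have : r = 0 := by omega
    rw [this] at hr2; norm_num at hr2
  have hrR : (1 : ℝ) ≤ r := by exact_mod_cast hr0
  have hrpos : (0 : ℝ) < r := by linarith
  filter_upwards [eventually_ge_atTop (1 : ℝ),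
      ev_exp 1 (3 * f0 / (8 * (2 * π + 1))) (by norm_num) (by positivity),
      ev_lin (1 / 10) (4 * r) (by norm_num), ev_lin (1 / 2) (r : ℝ) (by norm_num),
      ev_lin (1 / 5) (8 * r ^ 2 + r + 2) (by norm_num),
      ev_mul 1 (Real.log β) (by norm_num) hlog] with S g1 g2 g3 g4 g5 g6
  have hS0 : 0 ≤ S := by linarith
  rw [one_mul] at g2 g6
  set e : ℝ := Real.exp (-S) / r with he
  have hepos : 0 < e := by positivity
  obtain ⟨j, hj1, hje, hjle, hjmin⟩ := dirichlet_sin_min θ e hepos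
  set l : ℕ := r * j with hl
  have hlr : r ≤ l := Nat.le_mul_of_pos_right r hj1
  have hpow : β ^ r ≤ β ^ l := pow_le_pow_right₀ h1.le hlr
  have hl2 : 2 ≤ β ^ (l : ℤ) := by rw [zpow_natCast]; linarith
  have hs1 := hs0.step h1 hint hint' l hl2
  have hlinv : β ^ (-(l : ℤ)) ≤ (β ^ r)⁻¹ := by
    rw [zpow_neg, zpow_natCast]
    exact inv_anti₀ (by positivity) hpow
  have ha1 : |2 * a0 * Real.sin (l * θ)| ≤ Real.exp (-S) := by
    have h4 := abs_sin_nat_mul_le r (j * θ)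
    have e1 : (r : ℝ) * (j * θ) = (l : ℝ) * θ := by rw [hl]; push_cast; ring
    rw [e1] at h4
    rw [abs_mul, abs_two] at hje
    have h5 : 2 * |Real.sin (l * θ)| ≤ Real.exp (-S) := by
      calc 2 * |Real.sin (l * θ)| ≤ r * (2 * |Real.sin (j * θ)|) := by linarith
        _ ≤ r * e := mul_le_mul_of_nonneg_left hje hrpos.le
        _ = Real.exp (-S) := by rw [he]; field_simp
    have h6 : |2 * a0 * Real.sin (l * θ)| = |a0| * (2 * |Real.sin (l * θ)|) := by
      rw [abs_mul, abs_mul, abs_two]; ring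
    rw [h6]
    have h7 : 0 ≤ 2 * |Real.sin (l * θ)| := by positivity
    nlinarith [abs_nonneg a0]
  set t1 : ℝ := t0 * (β ^ (l : ℤ) - β ^ (-(l : ℤ))) with ht1
  have ht1le : t1 ≤ t0 * β ^ l := by
    rw [ht1, zpow_natCast]
    apply mul_le_mul_of_nonneg_left _ htpos.le
    have : 0 ≤ β ^ (-(l : ℤ)) := by positivity
    linarith
  set M : ℕ := ⌈S / Real.log β⌉₊ with hM
  have hM_ge : S / Real.log β ≤ M := Nat.le_ceil _
  have hM_le : (M : ℝ) ≤ S / Real.log β + 1 := (Nat.ceil_lt_add_one (by positivity)).le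
  set K : ℕ := l + r + M with hK
  refine ⟨∑ m ∈ Finset.Icc (-(K : ℤ)) K, cost β t1 m,
    Finset.sum_nonneg fun m _ => cost_nonneg _ _ _,
    t1, _, j, r, K, hs1, ha1, ?_, ?_, ?_, ?_, ?_, ?_, le_rfl⟩
  · intro m
    have h3 := hs0.step_ge h1 l m
    have h4 := hG0 ((l : ℤ) - |m|)
    have h5 : t0 * β ^ (-(l : ℤ)) ≤ f0 / (16 * π) := by
      calc t0 * β ^ (-(l : ℤ)) ≤ t0 * (β ^ r)⁻¹ := mul_le_mul_of_nonneg_left hlinv htpos.le
        _ ≤ f0 / (16 * π) := by
          rw [div_lt_iff₀ hf0] at hrf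
          rw [← div_eq_mul_inv, div_le_div_iff₀ (by positivity) (by positivity)]
          linarith
    have h6 : 2 * π * (t0 * β ^ (-(l : ℤ)) + |2 * a0 * Real.sin (l * θ)|) ≤
        f0 / 8 + 2 * π * Real.exp (-S) := by
      have h7 := mul_le_mul_of_nonneg_left (add_le_add h5 ha1) Real.two_pi_pos.le
      have e1 : 2 * π * (f0 / (16 * π) + Real.exp (-S)) = f0 / 8 + 2 * π * Real.exp (-S) := by
        field_simp; ring
      rwa [e1] at h7
    have h8 : (2 * π + 1) * Real.exp (-S) ≤ 3 * f0 / 8 := by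
      rw [le_div_iff₀ (by positivity)] at g2
      linarith
    linarith
  · calc t1 ≤ t0 * β ^ l := ht1le
      _ ≤ β ^ r * β ^ l := mul_le_mul_of_nonneg_right hrt.le (by positivity)
      _ = β ^ (r + l) := by rw [pow_add]
      _ ≤ β ^ (2 * (r * j)) := by
          apply pow_le_pow_right₀ h1.le
          rw [← hl]; omega
  · have e1 : S / 10 = 1 / 10 * S := by ring
    rw [e1]; exact g3
  · intro i hi1 hi2
    refine lt_of_le_of_lt ?_ (hjmin i hi1 hi2)
    rw [he, le_div_iff₀ hrpos]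
    calc Real.exp (-(3 / 2 * S)) * r ≤ Real.exp (-(3 / 2 * S)) * Real.exp (1 / 2 * S) :=
          mul_le_mul_of_nonneg_left g4 (Real.exp_pos _).le
      _ = Real.exp (-S) := by rw [← Real.exp_add]; congr 1; ring
  · have hb : β ^ (-(M : ℤ)) ≤ Real.exp (-S) := by
      have : β ^ (-(M : ℤ)) = Real.exp (-(M : ℝ) * Real.log β) := by
        rw [mul_comm, Real.exp_mul, Real.exp_log hβpos, ← Real.rpow_intCast]
        push_cast; rfl
      rw [this]
      apply Real.exp_le_exp.2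
      rw [div_le_iff₀ hlog] at hM_ge
      linarith
    have e1 : t0 * β ^ l * β ^ (-(K : ℤ)) = (t0 * (β ^ r)⁻¹) * β ^ (-(M : ℤ)) := by
      rw [hK, ← zpow_natCast β l, ← zpow_natCast β r, ← zpow_neg, mul_assoc, mul_assoc,
        ← zpow_add₀ hβpos.ne', ← zpow_add₀ hβpos.ne']
      congr 2; push_cast; ring
    calc t1 * β ^ (-(K : ℤ)) ≤ t0 * β ^ l * β ^ (-(K : ℤ)) :=
          mul_le_mul_of_nonneg_right ht1le (by positivity)
      _ = (t0 * (β ^ r)⁻¹) * β ^ (-(M : ℤ)) := e1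
      _ ≤ 1 * Real.exp (-S) := by
          apply mul_le_mul _ hb (by positivity) (by norm_num)
          rw [← div_eq_mul_inv, div_le_one (by positivity)]
          exact hrt.le
      _ = Real.exp (-S) := one_mul _
  · have h3 : (l : ℝ) = r * j := by rw [hl]; push_cast; ring
    have h4 : 2 * π / e = 2 * π * r * Real.exp S := by
      rw [he, Real.exp_neg]; field_simp
    rw [h4] at hjle
    have hE3 : 1 ≤ Real.exp S := Real.one_le_exp (by linarith)
    have h5 : (j : ℝ) ≤ 8 * r * Real.exp S := by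
      have h6 : 1 ≤ r * Real.exp S := by nlinarith
      have h7 : π ≤ 3.15 := Real.pi_lt_d2.le
      have h8 : 2 * π * r * Real.exp S ≤ 6.3 * (r * Real.exp S) := by
        have : 0 < r * Real.exp S := by positivity
        nlinarith
      nlinarith
    have h6 : (l : ℝ) ≤ 8 * r ^ 2 * Real.exp S := by
      rw [h3]
      have := mul_le_mul_of_nonneg_left h5 hrpos.le
      nlinarith
    have h7 : S / Real.log β ≤ Real.exp S := by
      rw [div_le_iff₀ hlog]; linarith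
    have h8 : Real.exp (6 / 5 * S) = Real.exp (1 / 5 * S) * Real.exp S := by
      rw [← Real.exp_add]; congr 1; ring
    rw [hK, h8]; push_cast
    have h9 := mul_le_mul_of_nonneg_right g5 (Real.exp_pos S).le
    have h10 : (r : ℝ) ≤ r * Real.exp S := by nlinarith
    nlinarith

lemma Inv.mono {β θ f c c' S R : ℝ} (h : Inv β θ f c S R) (hc : c ≤ c') (hS : 0 ≤ S) :
    Inv β θ f c' S R := by
  obtain ⟨t, a, j0, r0, K, hs, ha, hG, htβ, hr0, hj0, htK, hKS, hR⟩ := h
  refine ⟨t, a, j0, r0, K, hs, ha, hG, htβ, hr0, hj0, htK, hKS.trans ?_, hR⟩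
  apply Real.exp_le_exp.2
  exact mul_le_mul_of_nonneg_right hc hS

lemma Inv.iter {β θ f S R S0 : ℝ} (h1 : 1 < β) (hint : IsIntegral ℤ β) (hint' : IsIntegral ℤ β⁻¹)
    (hf : 0 < f) (hbig : ∀ S', S0 ≤ S' → Big β f S') (hS : S0 ≤ S) (hSpos : 0 ≤ S)
    (h : Inv β θ f (6 / 5) S R) (k : ℕ) :
    Inv β θ f (18 / 25) ((5 / 2) ^ (k + 1) * S) (2 ^ (k + 1) * (R + 1) - 1) := by
  induction k with
  | zero =>
    have := h.step h1 hint hint' hf (hbig S hS)
    convert this using 1 <;> ring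
  | succ k ih =>
    have hone : (1 : ℝ) ≤ (5 / 2) ^ (k + 1) := one_le_pow₀ (by norm_num)
    have hge : S ≤ (5 / 2) ^ (k + 1) * S := by nlinarith
    have h2 := (ih.mono (c' := 6 / 5) (by norm_num) (by linarith)).step h1 hint hint' hf
      (hbig _ (by linarith))
    convert h2 using 1 <;> ring

theorem taskB (β θ : ℝ) (h1 : 1 < β) (hint : IsIntegral ℤ β) (hint' : IsIntegral ℤ β⁻¹)
    (hrel : ∀ m : ℤ, ∃ n : ℤ, β ^ m + β ^ (-m) + 2 * Real.cos (m * θ) = n)
    (κ : ℝ) (hκ : 0 < κ) :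
    ∃ (t A : ℝ) (K : ℕ), 1 ≤ t ∧ 0 < A ∧ A ≤ 1 ∧ t * β ^ (-(K : ℤ)) ≤ A ∧
      (∀ m : ℤ, (K : ℤ) < m → ∃ n : ℤ, |t * β ^ m - n| ≤ 2 * A) ∧
      0 < |q β t K| ∧
      ((K : ℝ) + 1) * A ≤ κ * (q β t K) ^ 2 := by
  obtain ⟨f, hf, hfirst⟩ := exists_first h1 hint hint' hrel
  obtain ⟨S0, hS0⟩ := eventually_atTop.1 (ev_big β f h1 hf)
  obtain ⟨S, ⟨R, hR0, hInv⟩, hS⟩ := (hfirst.and (eventually_ge_atTop (max S0 1))).exists
  have hSS0 : S0 ≤ S := (le_max_left _ _).trans hS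
  have hS1 : 1 ≤ S := (le_max_right _ _).trans hS
  -- choose k
  obtain ⟨k, hk⟩ := pow_unbounded_of_one_lt
    ((2 * (R + 1) + |Real.log (2 / κ)|) / (7 / 25 * S)) (by norm_num : (1 : ℝ) < 5 / 4)
  rw [div_lt_iff₀ (by positivity)] at hk
  have hI := hInv.iter h1 hint hint' hf hS0 hSS0 (by linarith) k
  set S' : ℝ := (5 / 2) ^ (k + 1) * S with hS'
  set R' : ℝ := 2 ^ (k + 1) * (R + 1) - 1 with hR'
  have hkey : 2 * R' + Real.log (2 / κ) ≤ 7 / 25 * S' := by
    have e1 : (5 / 2 : ℝ) ^ (k + 1) = 2 ^ (k + 1) * (5 / 4) ^ (k + 1) := by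
      rw [← mul_pow]; norm_num
    have h2k : (1 : ℝ) ≤ 2 ^ (k + 1) := one_le_pow₀ (by norm_num)
    have h54 : (5 / 4 : ℝ) ^ k ≤ (5 / 4) ^ (k + 1) := pow_le_pow_right₀ (by norm_num) (by omega)
    have h3 : 2 * (R + 1) + |Real.log (2 / κ)| ≤ (5 / 4) ^ (k + 1) * (7 / 25 * S) := by
      have := mul_le_mul_of_nonneg_right h54 (by positivity : 0 ≤ 7 / 25 * S)
      linarith
    have h4 := mul_le_mul_of_nonneg_left h3 (by positivity : (0 : ℝ) ≤ 2 ^ (k + 1))
    have h5 : |Real.log (2 / κ)| ≤ 2 ^ (k + 1) * |Real.log (2 / κ)| := by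
      have := abs_nonneg (Real.log (2 / κ))
      nlinarith
    have h6 := le_abs_self (Real.log (2 / κ))
    rw [hS', hR', e1]
    nlinarith
  have hS'pos : 0 < S' := by rw [hS']; positivity
  clear_value S' R'
  obtain ⟨t, a, j0, r0, K, hs, ha, hG, htβ, hr0, hj0, htK, hKS, hcost⟩ := hI
  have htpos : 0 < t := by linarith [hs.one_le]
  have hqabs : |q β t K| = Real.exp (-∑ m ∈ Finset.Icc (-(K : ℤ)) K, cost β t m) := by
    unfold q cost
    rw [Finset.abs_prod, Finset.sum_neg_distrib, neg_neg, Real.exp_sum]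
    apply Finset.prod_congr rfl
    intro m _
    rw [Real.exp_log (hs.pos hint hint' m)]
  refine ⟨t, Real.exp (-S'), K, hs.one_le, Real.exp_pos _, ?_, htK, ?_, ?_, ?_⟩
  · rw [Real.exp_le_one_iff]; linarith
  · intro m hm
    obtain ⟨n, hn⟩ := hs.far h1 m
    refine ⟨n, hn.trans ?_⟩
    have h4 : t * β ^ (-|m|) ≤ t * β ^ (-(K : ℤ)) := by
      apply mul_le_mul_of_nonneg_left _ htpos.le
      apply zpow_le_zpow_right₀ h1.le
      rw [abs_of_nonneg (by omega)]; omega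
    linarith
  · rw [hqabs]; exact Real.exp_pos _
  · have h2 : (q β t K) ^ 2 = |q β t K| ^ 2 := (sq_abs _).symm
    rw [h2, hqabs, ← Real.exp_nat_mul]
    have h3 : Real.exp (-(2 * R')) ≤
        Real.exp ((2 : ℕ) * -∑ m ∈ Finset.Icc (-(K : ℤ)) K, cost β t m) := by
      apply Real.exp_le_exp.2
      push_cast; linarith
    have h4 : ((K : ℝ) + 1) * Real.exp (-S') ≤ 2 * Real.exp (-(7 / 25 * S')) := by
      have h5 : (K : ℝ) + 1 ≤ 2 * Real.exp (18 / 25 * S') := by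
        have : 1 ≤ Real.exp (18 / 25 * S') := Real.one_le_exp (by positivity)
        linarith
      calc ((K : ℝ) + 1) * Real.exp (-S') ≤ 2 * Real.exp (18 / 25 * S') * Real.exp (-S') :=
            mul_le_mul_of_nonneg_right h5 (Real.exp_pos _).le
        _ = 2 * Real.exp (-(7 / 25 * S')) := by
            rw [mul_assoc, ← Real.exp_add]; congr 2; ring
    have h6 : 2 * Real.exp (-(7 / 25 * S')) ≤ κ * Real.exp (-(2 * R')) := by
      have h7 : Real.exp (-(7 / 25 * S')) ≤ Real.exp (-(2 * R') - Real.log (2 / κ)) :=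
        Real.exp_le_exp.2 (by linarith)
      rw [Real.exp_sub, Real.exp_log (by positivity)] at h7
      have e2 : Real.exp (-(2 * R')) / (2 / κ) = κ * Real.exp (-(2 * R')) / 2 := by
        field_simp
      rw [e2] at h7
      linarith
    calc ((K : ℝ) + 1) * Real.exp (-S') ≤ κ * Real.exp (-(2 * R')) := h4.trans h6
      _ ≤ _ := mul_le_mul_of_nonneg_left h3 hκ.le

end Crest.Agent.R104
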