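import Crest.Agent.R104.Defs

/-!
Task C1: characteristic function of finite sign sums under the fair coin measure.
-/

set_option autoImplicit false

namespace Crest.Agent.R104

open MeasureTheory ProbabilityTheory Crest.AnalysisR
open scoped Real ENNReal

instance fairCoin_isProb : IsProbabilityMeasure fairCoin := by
  constructor
  simp only [fairCoin, Measure.coe_add, Measure.coe_smul, Pi.add_apply, Pi.smul_apply,
    measure_univ, smul_eq_mul, mul_one]
  exact ENNReal.inv_two_add_inv_two

lemma integral_fairCoin {E : Type*} [NormedAddCommGroup E] [NormedSpace ℝ E] [CompleteSpace E]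
    (f : Bool → E) :
    ∫ b, f b ∂fairCoin = (1 / 2 : ℝ) • (f true + f false) := by
  have hi : ∀ b : Bool, Integrable f ((2⁻¹ : ℝ≥0∞) • Measure.dirac b) := fun b =>
    Integrable.smul_measure (integrable_dirac (by simp [enorm_lt_top])) (by simp)
  unfold fairCoin
  rw [integral_add_measure (hi true) (hi false), integral_smul_measure, integral_smul_measure,
    integral_dirac, integral_dirac]
  simp [smul_add]

lemma coins_integral_prod (s : Finset ℕ) (g : ℕ → Bool → ℂ) :
    ∫ ω, ∏ i ∈ s, g i (ω i) ∂coins = ∏ i ∈ s, ∫ b, g i b ∂fairCoin := by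
  have hind : iIndepFun (fun (i : ℕ) (ω : ℕ → Bool) => ω i) coins :=
    iIndepFun_infinitePi (P := fun _ : ℕ => fairCoin) (X := fun _ b => b)
      (fun _ => measurable_id)
  have hind' : iIndepFun (fun (i : s) (ω : ℕ → Bool) => ω (i : ℕ)) coins :=
    hind.precomp Subtype.val_injective
  have h := hind'.integral_fun_prod_comp (f := fun i : s => g (i : ℕ))
    (fun i => (measurable_pi_apply _).aemeasurable)
    (fun i => (measurable_of_countable _).aestronglyMeasurable)
  have e1 : (fun ω : ℕ → Bool => ∏ i : s, g (i : ℕ) (ω (i : ℕ))) =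
      fun ω => ∏ i ∈ s, g i (ω i) := by
    funext ω
    exact Finset.prod_coe_sort s (fun i => g i (ω i))
  rw [e1] at h
  rw [h, Finset.prod_coe_sort s (fun i => ∫ ω : ℕ → Bool, g i (ω i) ∂coins)]
  refine Finset.prod_congr rfl fun i _ => ?_
  have hm : Measure.map (fun ω : ℕ → Bool => ω i) coins = fairCoin :=
    Measure.infinitePi_map_eval (fun _ : ℕ => fairCoin) i
  rw [← hm, integral_map (measurable_pi_apply _).aemeasurable
    (measurable_of_countable _).aestronglyMeasurable]

/-- complex characteristic function -/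
lemma coins_integral_exp (s : Finset ℕ) (a : ℕ → ℝ) :
    ∫ ω, Complex.exp (((2 * π * ∑ i ∈ s, sg (ω i) * a i : ℝ) : ℂ) * Complex.I) ∂coins =
      ((∏ i ∈ s, cc (a i) : ℝ) : ℂ) := by
  have e1 : (fun ω : ℕ → Bool =>
      Complex.exp (((2 * π * ∑ i ∈ s, sg (ω i) * a i : ℝ) : ℂ) * Complex.I)) =
      fun ω => ∏ i ∈ s, Complex.exp (((2 * π * (sg (ω i) * a i) : ℝ) : ℂ) * Complex.I) := by
    funext ω
    rw [← Complex.exp_sum, Finset.mul_sum, Complex.ofReal_sum, Finset.sum_mul]
  rw [e1, coins_integral_prod s
    (fun i b => Complex.exp (((2 * π * (sg b * a i) : ℝ) : ℂ) * Complex.I)),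
    Complex.ofReal_prod]
  refine Finset.prod_congr rfl fun i _ => ?_
  rw [integral_fairCoin]
  have h1 : Complex.exp (((2 * π * (sg true * a i) : ℝ) : ℂ) * Complex.I) +
      Complex.exp (((2 * π * (sg false * a i) : ℝ) : ℂ) * Complex.I) =
      2 * ((cc (a i) : ℝ) : ℂ) := by
    simp only [sg, cc, if_true, Bool.false_eq_true, if_false, one_mul, neg_mul, mul_neg,
      Complex.ofReal_neg, Complex.ofReal_cos]
    rw [Complex.two_cos]
    simp
  rw [h1]
  simp

/-- TASK C1: characteristic function of finite sign sums -/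
theorem taskC1 (s : Finset ℕ) (a : ℕ → ℝ) :
    ∫ ω, cc (∑ i ∈ s, sg (ω i) * a i) ∂coins = ∏ i ∈ s, cc (a i) := by
  have h := coins_integral_exp s a
  have hmeas : Measurable fun ω : ℕ → Bool => ∑ i ∈ s, sg (ω i) * a i := by
    refine Finset.measurable_sum _ fun i _ => ?_
    exact ((measurable_of_countable sg).comp (measurable_pi_apply i)).mul_const _
  have hint : Integrable (fun ω : ℕ → Bool =>
      Complex.exp (((2 * π * ∑ i ∈ s, sg (ω i) * a i : ℝ) : ℂ) * Complex.I)) coins := by
    refine Integrable.of_bound (C := 1) ?_ (Filter.Eventually.of_forall fun ω => ?_)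
    · refine Measurable.aestronglyMeasurable ?_
      refine Complex.measurable_exp.comp ?_
      exact (Complex.measurable_ofReal.comp (hmeas.const_mul _)).mul_const _
    · rw [Complex.norm_exp_ofReal_mul_I]
  have h2 := congrArg Complex.re h
  rw [Complex.ofReal_re] at h2
  rw [← h2, ← RCLike.re_eq_complex_re, ← integral_re hint]
  refine integral_congr_ae (Filter.Eventually.of_forall fun ω => ?_)
  simp only [RCLike.re_eq_complex_re, cc]
  rw [Complex.exp_ofReal_mul_I_re]

end Crest.Agent.R104
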