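import Crest.Agent.R104.C1

/-!
Task C2: L² estimate under the fair coin measure.
-/

set_option autoImplicit false

namespace Crest.Agent.R104

open MeasureTheory ProbabilityTheory Crest.AnalysisR
open scoped Real ENNReal

lemma sg_abs (b : Bool) : |sg b| = 1 := by cases b <;> simp [sg]

lemma sg_mul_self (b : Bool) : sg b * sg b = 1 := by cases b <;> simp [sg]

lemma cc_add_int (x : ℝ) (n : ℤ) : cc (x + n) = cc x := by
  unfold cc
  rw [mul_add, show 2 * π * (n : ℝ) = n * (2 * π) by ring, Real.cos_add_int_mul_two_pi]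

lemma abs_cc_le (x : ℝ) : |cc x| ≤ 1 := Real.abs_cos_le_one _

lemma abs_cc_sub_le (x y : ℝ) : |cc (x + y) - cc x| ≤ 2 * π * |y| := by
  unfold cc
  refine (Real.abs_cos_sub_cos_le _ _).trans ?_
  rw [show 2 * π * (x + y) - 2 * π * x = 2 * π * y by ring, abs_mul,
    abs_of_pos (by positivity : (0 : ℝ) < 2 * π)]

lemma measurable_cc : Measurable cc := by unfold cc; fun_prop

lemma measurable_sgsum (s : Finset ℕ) (a : ℕ → ℝ) :
    Measurable fun ω : ℕ → Bool => ∑ i ∈ s, sg (ω i) * a i := by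
  refine Finset.measurable_sum _ fun i _ => ?_
  exact ((measurable_of_countable sg).comp (measurable_pi_apply i)).mul_const _

lemma integrable_of_bdd (f : (ℕ → Bool) → ℝ) (hf : Measurable f) (C : ℝ) (hC : ∀ ω, |f ω| ≤ C) :
    Integrable f coins :=
  Integrable.of_bound hf.aestronglyMeasurable C (Filter.Eventually.of_forall hC)

lemma integrable_cc_sgsum (s : Finset ℕ) (a : ℕ → ℝ) :
    Integrable (fun ω => cc (∑ i ∈ s, sg (ω i) * a i)) coins :=
  integrable_of_bdd _ (measurable_cc.comp (measurable_sgsum s a)) 1 fun _ => abs_cc_le _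

lemma integrable_cc_mul (s s' : Finset ℕ) (a a' : ℕ → ℝ) :
    Integrable (fun ω => cc (∑ i ∈ s, sg (ω i) * a i) * cc (∑ i ∈ s', sg (ω i) * a' i)) coins :=
  integrable_of_bdd _ ((measurable_cc.comp (measurable_sgsum s a)).mul
    (measurable_cc.comp (measurable_sgsum s' a'))) 1 fun ω => by
      rw [abs_mul]
      exact mul_le_one₀ (abs_cc_le _) (abs_nonneg _) (abs_cc_le _)

lemma coins_integral_prod_real (s : Finset ℕ) (g : ℕ → Bool → ℝ) :
    ∫ ω, ∏ i ∈ s, g i (ω i) ∂coins = ∏ i ∈ s, ∫ b, g i b ∂fairCoin := by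
  have hind : iIndepFun (fun (i : ℕ) (ω : ℕ → Bool) => ω i) coins :=
    iIndepFun_infinitePi (P := fun _ : ℕ => fairCoin) (X := fun _ b => b)
      (fun _ => measurable_id)
  have hind' : iIndepFun (fun (i : s) (ω : ℕ → Bool) => ω (i : ℕ)) coins :=
    hind.precomp Subtype.val_injective
  have h := hind'.integral_fun_prod_comp (f := fun i : s => g (i : ℕ))
    (fun i => (measurable_pi_apply _).aemeasurable)
    (fun i => (measurable_of_countable _).aestronglyMeasurable)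
  have e1 : (fun ω : ℕ → Bool => ∏ i : s, g (i : ℕ) (ω (i : ℕ))) =
      fun ω => ∏ i ∈ s, g i (ω i) := by
    funext ω
    exact Finset.prod_coe_sort s (fun i => g i (ω i))
  rw [e1] at h
  rw [h, Finset.prod_coe_sort s (fun i => ∫ ω : ℕ → Bool, g i (ω i) ∂coins)]
  refine Finset.prod_congr rfl fun i _ => ?_
  have hm : Measure.map (fun ω : ℕ → Bool => ω i) coins = fairCoin :=
    Measure.infinitePi_map_eval (fun _ : ℕ => fairCoin) i
  rw [← hm, integral_map (measurable_pi_apply _).aemeasurable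
    (measurable_of_countable _).aestronglyMeasurable]

lemma coins_integral_sg_mul (i j : ℕ) :
    ∫ ω, sg (ω i) * sg (ω j) ∂coins = if i = j then 1 else 0 := by
  split_ifs with h
  · subst h
    simp [sg_mul_self]
  · have h1 := coins_integral_prod_real {i, j} (fun _ => sg)
    simp only [Finset.prod_pair h] at h1
    rw [h1, integral_fairCoin]
    simp [sg]

lemma integrable_sg_mul (i j : ℕ) (c : ℝ) :
    Integrable (fun ω : ℕ → Bool => sg (ω i) * sg (ω j) * c) coins := by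
  refine integrable_of_bdd _ ?_ |c| fun ω => ?_
  · exact ((((measurable_of_countable sg).comp (measurable_pi_apply i))).mul
      ((measurable_of_countable sg).comp (measurable_pi_apply j))).mul_const _
  · rw [abs_mul, abs_mul, sg_abs, sg_abs]; simp

lemma sgsum_sq (s : Finset ℕ) (a : ℕ → ℝ) (ω : ℕ → Bool) :
    (∑ i ∈ s, sg (ω i) * a i) ^ 2 =
      ∑ i ∈ s, ∑ j ∈ s, sg (ω i) * sg (ω j) * (a i * a j) := by
  rw [sq, Finset.sum_mul_sum]
  refine Finset.sum_congr rfl fun i _ => Finset.sum_congr rfl fun j _ => ?_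
  ring

lemma integrable_sgsum_sq (s : Finset ℕ) (a : ℕ → ℝ) :
    Integrable (fun ω => (∑ i ∈ s, sg (ω i) * a i) ^ 2) coins := by
  simp_rw [sgsum_sq]
  exact integrable_finsetSum _ fun i _ => integrable_finsetSum _ fun j _ =>
    integrable_sg_mul i j _

lemma integral_sgsum_sq (s : Finset ℕ) (a : ℕ → ℝ) :
    ∫ ω, (∑ i ∈ s, sg (ω i) * a i) ^ 2 ∂coins = ∑ i ∈ s, (a i) ^ 2 := by
  simp_rw [sgsum_sq]
  rw [integral_finsetSum _ fun i _ => integrable_finsetSum _ fun j _ =>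
    integrable_sg_mul i j _]
  refine Finset.sum_congr rfl fun i hi => ?_
  rw [integral_finsetSum _ fun j _ => integrable_sg_mul i j _]
  simp_rw [integral_mul_const, coins_integral_sg_mul]
  rw [Finset.sum_eq_single i]
  · simp [sq]
  · intro j _ hj
    rw [if_neg (Ne.symm hj), zero_mul]
  · intro h; exact absurd hi h

lemma cc_mul_cc (x y : ℝ) : cc x * cc y = (cc (x + y) + cc (x - y)) / 2 := by
  unfold cc
  rw [show 2 * π * (x + y) = 2 * π * x + 2 * π * y by ring,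
    show 2 * π * (x - y) = 2 * π * x - 2 * π * y by ring, Real.cos_add, Real.cos_sub]
  ring

lemma cc_neg (x : ℝ) : cc (-x) = cc x := by
  unfold cc
  rw [mul_neg, Real.cos_neg]

lemma coins_integral_cc_mul (s s' : Finset ℕ) (a a' : ℕ → ℝ) (hd : Disjoint s s') :
    ∫ ω, cc (∑ i ∈ s, sg (ω i) * a i) * cc (∑ i ∈ s', sg (ω i) * a' i) ∂coins =
      (∏ i ∈ s, cc (a i)) * ∏ i ∈ s', cc (a' i) := by
  classical
  set b : ℕ → ℝ := fun i => if i ∈ s then a i else a' i with hb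
  set b' : ℕ → ℝ := fun i => if i ∈ s then a i else -a' i with hb'
  have hns : ∀ i ∈ s', i ∉ s := fun i hi his => (Finset.disjoint_left.1 hd) his hi
  have e1 : ∀ ω : ℕ → Bool, (∑ i ∈ s, sg (ω i) * a i) + (∑ i ∈ s', sg (ω i) * a' i) =
      ∑ i ∈ s ∪ s', sg (ω i) * b i := by
    intro ω
    rw [Finset.sum_union hd]
    congr 1
    · exact Finset.sum_congr rfl fun i hi => by simp [hb, hi]
    · exact Finset.sum_congr rfl fun i hi => by simp [hb, hns i hi]
  have e2 : ∀ ω : ℕ → Bool, (∑ i ∈ s, sg (ω i) * a i) - (∑ i ∈ s', sg (ω i) * a' i) =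
      ∑ i ∈ s ∪ s', sg (ω i) * b' i := by
    intro ω
    rw [Finset.sum_union hd, sub_eq_add_neg, ← Finset.sum_neg_distrib]
    congr 1
    · exact Finset.sum_congr rfl fun i hi => by simp [hb', hi]
    · exact Finset.sum_congr rfl fun i hi => by simp [hb', hns i hi]
  have e3 : ∏ i ∈ s ∪ s', cc (b i) = (∏ i ∈ s, cc (a i)) * ∏ i ∈ s', cc (a' i) := by
    rw [Finset.prod_union hd]
    congr 1
    · exact Finset.prod_congr rfl fun i hi => by simp [hb, hi]
    · exact Finset.prod_congr rfl fun i hi => by simp [hb, hns i hi]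
  have e4 : ∏ i ∈ s ∪ s', cc (b' i) = (∏ i ∈ s, cc (a i)) * ∏ i ∈ s', cc (a' i) := by
    rw [Finset.prod_union hd]
    congr 1
    · exact Finset.prod_congr rfl fun i hi => by simp [hb', hi]
    · exact Finset.prod_congr rfl fun i hi => by simp [hb', hns i hi, cc_neg]
  simp_rw [cc_mul_cc, e1, e2]
  rw [integral_div, integral_add (integrable_cc_sgsum _ _) (integrable_cc_sgsum _ _), taskC1,
    taskC1, e3, e4]
  ring

/-- second moment of the centred window averages -/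
lemma window_moment (K N : ℕ) (a : ℕ → ℕ → ℝ) (Q : ℝ)
    (hQ : ∀ n, ∏ i ∈ Finset.Ico n (n + 2 * K + 1), cc (a n i) = Q) :
    ∫ ω, (∑ n ∈ Finset.Icc 1 N,
      (cc (∑ i ∈ Finset.Ico n (n + 2 * K + 1), sg (ω i) * a n i) - Q)) ^ 2 ∂coins ≤
      N * (4 * K + 1) := by
  classical
  set G : ℕ → (ℕ → Bool) → ℝ := fun n ω =>
    cc (∑ i ∈ Finset.Ico n (n + 2 * K + 1), sg (ω i) * a n i) with hG
  have hGi : ∀ n, Integrable (G n) coins := fun n => integrable_cc_sgsum _ _
  have hGGi : ∀ n m, Integrable (fun ω => G n ω * G m ω) coins := fun n m =>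
    integrable_cc_mul _ _ _ _
  have hEG : ∀ n, ∫ ω, G n ω ∂coins = Q := fun n => by
    rw [← hQ n]; exact taskC1 _ _
  have hdd : ∀ n m, (fun ω => (G n ω - Q) * (G m ω - Q)) =
      fun ω => (G n ω * G m ω - Q * G n ω) - (Q * G m ω - Q * Q) := by
    intro n m; funext ω; ring
  have hddi : ∀ n m, Integrable (fun ω => (G n ω - Q) * (G m ω - Q)) coins := by
    intro n m
    rw [hdd]
    exact ((hGGi n m).sub ((hGi n).const_mul Q)).sub
      (((hGi m).const_mul Q).sub (integrable_const _))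
  have hE : ∀ n m, ∫ ω, (G n ω - Q) * (G m ω - Q) ∂coins =
      ∫ ω, G n ω * G m ω ∂coins - Q * Q := by
    intro n m
    have i1 : Integrable (fun ω => G n ω * G m ω - Q * G n ω) coins :=
      (hGGi n m).sub ((hGi n).const_mul Q)
    have i2 : Integrable (fun ω => Q * G m ω - Q * Q) coins :=
      ((hGi m).const_mul Q).sub (integrable_const _)
    rw [hdd, integral_sub i1 i2, integral_sub (hGGi n m) ((hGi n).const_mul Q),
      integral_sub ((hGi m).const_mul Q) (integrable_const _), integral_const_mul,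
      integral_const_mul, hEG, hEG, integral_const]
    simp
  have hbound : ∀ n m, ∫ ω, (G n ω - Q) * (G m ω - Q) ∂coins ≤
      if (n ≤ m + 2 * K ∧ m ≤ n + 2 * K) then 1 else 0 := by
    intro n m
    rw [hE]
    split_ifs with h
    · have h1 : ∫ ω, G n ω * G m ω ∂coins ≤ ∫ _ω : ℕ → Bool, (1 : ℝ) ∂coins := by
        refine integral_mono (hGGi n m) (integrable_const _) fun ω => ?_
        refine (le_abs_self _).trans ?_
        rw [abs_mul]
        exact mul_le_one₀ (abs_cc_le _) (abs_nonneg _) (abs_cc_le _)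
      rw [integral_const] at h1
      simp only [probReal_univ, smul_eq_mul, mul_one] at h1
      nlinarith [mul_self_nonneg Q]
    · have hdisj : Disjoint (Finset.Ico n (n + 2 * K + 1)) (Finset.Ico m (m + 2 * K + 1)) := by
        rw [Finset.disjoint_left]
        intro i hi hj
        rw [Finset.mem_Ico] at hi hj
        apply h
        omega
      have := coins_integral_cc_mul _ _ (a n) (a m) hdisj
      rw [hQ, hQ] at this
      rw [hG]
      simp only
      rw [this, sub_self]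
  have hexp : (fun ω : ℕ → Bool => (∑ n ∈ Finset.Icc 1 N, (G n ω - Q)) ^ 2) =
      fun ω => ∑ n ∈ Finset.Icc 1 N, ∑ m ∈ Finset.Icc 1 N, (G n ω - Q) * (G m ω - Q) := by
    funext ω
    rw [sq, Finset.sum_mul_sum]
  change ∫ ω, (∑ n ∈ Finset.Icc 1 N, (G n ω - Q)) ^ 2 ∂coins ≤ _
  rw [hexp, integral_finsetSum _ fun n _ => integrable_finsetSum _ fun m _ => hddi n m]
  have hcard : ∀ n, ∑ m ∈ Finset.Icc 1 N,
      (if (n ≤ m + 2 * K ∧ m ≤ n + 2 * K) then (1 : ℝ) else 0) ≤ 4 * K + 1 := by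
    intro n
    rw [← Finset.sum_filter, Finset.sum_const, nsmul_eq_mul, mul_one]
    have hsub : (Finset.Icc 1 N).filter (fun m => n ≤ m + 2 * K ∧ m ≤ n + 2 * K) ⊆
        Finset.Icc (n - 2 * K) (n + 2 * K) := by
      intro m hm
      rw [Finset.mem_filter] at hm
      rw [Finset.mem_Icc]
      omega
    have h1 := Finset.card_le_card hsub
    rw [Nat.card_Icc] at h1
    have h2 : ((Finset.Icc 1 N).filter (fun m => n ≤ m + 2 * K ∧ m ≤ n + 2 * K)).card ≤
        4 * K + 1 := by omega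
    exact_mod_cast h2
  calc ∑ n ∈ Finset.Icc 1 N, ∫ ω, ∑ m ∈ Finset.Icc 1 N, (G n ω - Q) * (G m ω - Q) ∂coins
      = ∑ n ∈ Finset.Icc 1 N, ∑ m ∈ Finset.Icc 1 N,
          ∫ ω, (G n ω - Q) * (G m ω - Q) ∂coins := by
        refine Finset.sum_congr rfl fun n _ => ?_
        rw [integral_finsetSum _ fun m _ => hddi n m]
    _ ≤ ∑ n ∈ Finset.Icc 1 N, ∑ m ∈ Finset.Icc 1 N,
          (if (n ≤ m + 2 * K ∧ m ≤ n + 2 * K) then (1 : ℝ) else 0) :=
        Finset.sum_le_sum fun n _ => Finset.sum_le_sum fun m _ => hbound n m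
    _ ≤ ∑ n ∈ Finset.Icc 1 N, (4 * (K : ℝ) + 1) := Finset.sum_le_sum fun n _ => hcard n
    _ = N * (4 * K + 1) := by
        rw [Finset.sum_const, Nat.card_Icc, nsmul_eq_mul]
        simp

lemma sps_eq (c : ℝ) (ω : ℕ → Bool) :
    signedPowerSum c ω = ∑' i, sg (ω i) * c ^ i := by
  unfold signedPowerSum
  refine tsum_congr fun i => ?_
  unfold sg
  split_ifs <;> simp

/-- splitting of `t β^(n+K) X` in the past, window and tail parts -/
lemma sps_decomp (β : ℝ) (h1 : 1 < β) (t A : ℝ) (ht : 1 ≤ t) (K n : ℕ)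
    (hK : t * β ^ (-(K : ℤ)) ≤ A) (ω : ℕ → Bool) :
    ∃ T : ℝ, |T| ≤ A / (β - 1) ∧ t * β ^ (n + K) * signedPowerSum β⁻¹ ω =
      (∑ i ∈ Finset.range n, sg (ω i) * (t * β ^ ((n : ℤ) + K - i))) +
      (∑ i ∈ Finset.Ico n (n + 2 * K + 1), sg (ω i) * (t * β ^ ((n : ℤ) + K - i))) + T := by
  have hβ0 : (0 : ℝ) < β := by linarith
  have hβne : β ≠ 0 := hβ0.ne'
  have hinv0 : 0 ≤ β⁻¹ := inv_nonneg.2 hβ0.le
  have hinv1 : β⁻¹ < 1 := inv_lt_one_of_one_lt₀ h1
  set f : ℕ → ℝ := fun i => sg (ω i) * (t * β ^ ((n : ℤ) + K - i)) with hf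
  have hfi : ∀ i : ℕ, f i = t * β ^ (n + K) * (sg (ω i) * β⁻¹ ^ i) := by
    intro i
    rw [hf]
    simp only
    rw [zpow_sub₀ hβne, zpow_natCast, inv_pow]
    rw [show ((n : ℤ) + K) = ((n + K : ℕ) : ℤ) by push_cast; ring, zpow_natCast]
    field_simp
  have hgeo : Summable fun i : ℕ => β⁻¹ ^ i := summable_geometric_of_lt_one hinv0 hinv1
  have hs0 : Summable fun i : ℕ => sg (ω i) * β⁻¹ ^ i := by
    refine Summable.of_norm_bounded hgeo fun i => ?_
    rw [Real.norm_eq_abs, abs_mul, sg_abs, one_mul, abs_of_nonneg (pow_nonneg hinv0 _)]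
  have hs : Summable f := by
    have := hs0.mul_left (t * β ^ (n + K))
    exact this.congr fun i => (hfi i).symm
  refine ⟨∑' i, f (i + (n + 2 * K + 1)), ?_, ?_⟩
  · have hg : HasSum (fun i : ℕ => t * β ^ (-(K : ℤ)) * β⁻¹ * β⁻¹ ^ i)
        (t * β ^ (-(K : ℤ)) * β⁻¹ * (1 - β⁻¹)⁻¹) :=
      (hasSum_geometric_of_lt_one hinv0 hinv1).mul_left _
    have hb : ∀ i : ℕ, ‖f (i + (n + 2 * K + 1))‖ ≤ t * β ^ (-(K : ℤ)) * β⁻¹ * β⁻¹ ^ i := by
      intro i
      rw [Real.norm_eq_abs, hf]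
      simp only
      rw [abs_mul, sg_abs, one_mul, abs_of_nonneg (by positivity)]
      apply le_of_eq
      have e : ((n : ℤ) + K - ((i + (n + 2 * K + 1) : ℕ) : ℤ)) = -(K : ℤ) + (-1) + -(i : ℤ) := by
        push_cast; ring
      rw [e, zpow_add₀ hβne, zpow_add₀ hβne, zpow_neg_one, zpow_neg β (i : ℤ), zpow_natCast,
        inv_pow]
      ring
    have h2 := tsum_of_norm_bounded hg hb
    rw [Real.norm_eq_abs] at h2
    refine h2.trans ?_
    have e : t * β ^ (-(K : ℤ)) * β⁻¹ * (1 - β⁻¹)⁻¹ = t * β ^ (-(K : ℤ)) / (β - 1) := by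
      have : β - 1 ≠ 0 := by linarith
      have h3 : 1 - β⁻¹ = (β - 1) / β := by field_simp
      rw [h3]
      field_simp
    rw [e]
    exact div_le_div_of_nonneg_right hK (by linarith)
  · rw [sps_eq, ← tsum_mul_left]
    have e : ∑' i, t * β ^ (n + K) * (sg (ω i) * β⁻¹ ^ i) = ∑' i, f i :=
      tsum_congr fun i => (hfi i).symm
    rw [e, ← hs.sum_add_tsum_nat_add (n + 2 * K + 1)]
    congr 1
    rw [Finset.range_eq_Ico, Finset.range_eq_Ico, Finset.sum_Ico_consecutive _ (Nat.zero_le _)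
      (by omega)]

lemma prod_window (β t : ℝ) (K n : ℕ) :
    ∏ i ∈ Finset.Ico n (n + 2 * K + 1), cc (t * β ^ ((n : ℤ) + K - i)) = q β t K := by
  unfold q
  refine Finset.prod_nbij' (fun i => (n : ℤ) + K - i) (fun m => ((n : ℤ) + K - m).toNat)
    ?_ ?_ ?_ ?_ ?_
  · intro i hi
    rw [Finset.mem_Ico] at hi
    rw [Finset.mem_Icc]
    omega
  · intro m hm
    rw [Finset.mem_Icc] at hm
    rw [Finset.mem_Ico]
    omega
  · intro i hi
    rw [Finset.mem_Ico] at hi
    omega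
  · intro m hm
    rw [Finset.mem_Icc] at hm
    omega
  · intro i _
    rfl

/-- TASK C2: L² estimate under the coin measure -/
theorem taskC2 (β : ℝ) (h1 : 1 < β) (t A : ℝ) (K N : ℕ) (hN : 0 < N) (ht : 1 ≤ t) (hA : 0 < A)
    (hK : t * β ^ (-(K : ℤ)) ≤ A)
    (hw : ∀ m : ℤ, (K : ℤ) < m → ∃ n : ℤ, |t * β ^ m - n| ≤ 2 * A) :
    ∫ ω, (F β t K N (signedPowerSum β⁻¹ ω) - q β t K) ^ 2 ∂coins ≤
      3 * ((2 * π * A / (β - 1)) ^ 2 + 16 * π ^ 2 * N * A ^ 2 + (4 * K + 1) / N) := by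
  have hNR : (0 : ℝ) < N := by exact_mod_cast hN
  have hb1 : 0 < β - 1 := by linarith
  choose! z hz using hw
  -- the perturbation coefficients
  set w : ℕ → ℕ → ℝ := fun n i => t * β ^ ((n : ℤ) + K - i) - z ((n : ℤ) + K - i) with hwdef
  set H : ℕ → (ℕ → Bool) → ℝ := fun n ω => ∑ i ∈ Finset.range n, sg (ω i) * w n i with hH
  set W : ℕ → (ℕ → Bool) → ℝ := fun n ω =>
    ∑ i ∈ Finset.Ico n (n + 2 * K + 1), sg (ω i) * (t * β ^ ((n : ℤ) + K - i)) with hW
  set Q := q β t K with hQ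
  have hwle : ∀ n : ℕ, ∀ i ∈ Finset.range n, |w n i| ≤ 2 * A := by
    intro n i hi
    rw [Finset.mem_range] at hi
    exact hz _ (by omega)
  choose T hT hdec using fun (n : ℕ) (ω : ℕ → Bool) => sps_decomp β h1 t A ht K n hK ω
  -- reduction mod 1
  have hcc : ∀ n ω, cc (t * β ^ (n + K) * signedPowerSum β⁻¹ ω) = cc (W n ω + H n ω + T n ω) := by
    intro n ω
    have hint : ∃ k : ℤ, ∑ i ∈ Finset.range n, sg (ω i) * (t * β ^ ((n : ℤ) + K - i)) =
        H n ω + k := by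
      refine ⟨∑ i ∈ Finset.range n, (if ω i then 1 else -1) * z ((n : ℤ) + K - i), ?_⟩
      rw [hH]
      simp only
      push_cast
      rw [← Finset.sum_add_distrib]
      refine Finset.sum_congr rfl fun i _ => ?_
      rw [hwdef]
      simp only [sg]
      split_ifs <;> push_cast <;> ring
    obtain ⟨k, hk⟩ := hint
    rw [hdec, hk, ← cc_add_int (W n ω + H n ω + T n ω) k]
    congr 1
    rw [hW]
    ring
  -- pointwise bound
  set α : ℝ := 2 * π * A / (β - 1) with hα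
  have hpt : ∀ ω, (F β t K N (signedPowerSum β⁻¹ ω) - Q) ^ 2 ≤
      3 * (α ^ 2 + (1 / (N : ℝ)) * ∑ n ∈ Finset.Icc 1 N, (2 * π) ^ 2 * (H n ω) ^ 2 +
        (1 / (N : ℝ) ^ 2) * (∑ n ∈ Finset.Icc 1 N, (cc (W n ω) - Q)) ^ 2) := by
    intro ω
    have hF : F β t K N (signedPowerSum β⁻¹ ω) - Q =
        (1 / (N : ℝ)) * ∑ n ∈ Finset.Icc 1 N, (cc (W n ω + H n ω + T n ω) - cc (W n ω + H n ω)) +
        (1 / (N : ℝ)) * ∑ n ∈ Finset.Icc 1 N, (cc (W n ω + H n ω) - cc (W n ω)) +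
        (1 / (N : ℝ)) * ∑ n ∈ Finset.Icc 1 N, (cc (W n ω) - Q) := by
      rw [← mul_add, ← mul_add, ← Finset.sum_add_distrib, ← Finset.sum_add_distrib]
      unfold F
      simp_rw [hcc]
      have : ∑ n ∈ Finset.Icc 1 N, (cc (W n ω + H n ω + T n ω) - cc (W n ω + H n ω) +
          (cc (W n ω + H n ω) - cc (W n ω)) + (cc (W n ω) - Q)) =
          ∑ n ∈ Finset.Icc 1 N, (cc (W n ω + H n ω + T n ω) - Q) :=
        Finset.sum_congr rfl fun n _ => by ring
      rw [this, Finset.sum_sub_distrib, Finset.sum_const, Nat.card_Icc, nsmul_eq_mul]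
      simp only [Nat.add_sub_cancel]
      field_simp
    have hx : ((1 / (N : ℝ)) * ∑ n ∈ Finset.Icc 1 N,
        (cc (W n ω + H n ω + T n ω) - cc (W n ω + H n ω))) ^ 2 ≤ α ^ 2 := by
      rw [← sq_abs]
      refine pow_le_pow_left₀ (abs_nonneg _) ?_ 2
      rw [abs_mul, abs_of_pos (by positivity : (0 : ℝ) < 1 / N)]
      have : |∑ n ∈ Finset.Icc 1 N, (cc (W n ω + H n ω + T n ω) - cc (W n ω + H n ω))| ≤
          ∑ n ∈ Finset.Icc 1 N, α := by
        refine (Finset.abs_sum_le_sum_abs _ _).trans (Finset.sum_le_sum fun n _ => ?_)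
        refine (abs_cc_sub_le _ _).trans ?_
        rw [hα, mul_div_assoc]
        exact mul_le_mul_of_nonneg_left (hT n ω) (by positivity)
      rw [Finset.sum_const, Nat.card_Icc, nsmul_eq_mul, Nat.add_sub_cancel] at this
      calc 1 / (N : ℝ) * _ ≤ 1 / (N : ℝ) * (N * α) :=
            mul_le_mul_of_nonneg_left this (by positivity)
        _ = α := by field_simp
    have hy : ((1 / (N : ℝ)) * ∑ n ∈ Finset.Icc 1 N,
        (cc (W n ω + H n ω) - cc (W n ω))) ^ 2 ≤
        (1 / (N : ℝ)) * ∑ n ∈ Finset.Icc 1 N, (2 * π) ^ 2 * (H n ω) ^ 2 := by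
      rw [mul_pow]
      have h3 := sq_sum_le_card_mul_sum_sq (s := Finset.Icc 1 N)
        (f := fun n => cc (W n ω + H n ω) - cc (W n ω))
      rw [Nat.card_Icc, Nat.add_sub_cancel] at h3
      have h4 : ∑ n ∈ Finset.Icc 1 N, (cc (W n ω + H n ω) - cc (W n ω)) ^ 2 ≤
          ∑ n ∈ Finset.Icc 1 N, (2 * π) ^ 2 * (H n ω) ^ 2 := by
        refine Finset.sum_le_sum fun n _ => ?_
        rw [← sq_abs, ← mul_pow, ← sq_abs (2 * π * H n ω)]
        refine pow_le_pow_left₀ (abs_nonneg _) ?_ 2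
        refine (abs_cc_sub_le _ _).trans ?_
        rw [abs_mul (2 * π), abs_of_pos (by positivity : (0 : ℝ) < 2 * π)]
      calc (1 / (N : ℝ)) ^ 2 * (∑ n ∈ Finset.Icc 1 N, (cc (W n ω + H n ω) - cc (W n ω))) ^ 2
          ≤ (1 / (N : ℝ)) ^ 2 * (N * ∑ n ∈ Finset.Icc 1 N, (2 * π) ^ 2 * (H n ω) ^ 2) := by
            refine mul_le_mul_of_nonneg_left (h3.trans ?_) (by positivity)
            exact mul_le_mul_of_nonneg_left h4 hNR.le
        _ = (1 / (N : ℝ)) * ∑ n ∈ Finset.Icc 1 N, (2 * π) ^ 2 * (H n ω) ^ 2 := by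
            field_simp
    have hzz : ((1 / (N : ℝ)) * ∑ n ∈ Finset.Icc 1 N, (cc (W n ω) - Q)) ^ 2 =
        (1 / (N : ℝ) ^ 2) * (∑ n ∈ Finset.Icc 1 N, (cc (W n ω) - Q)) ^ 2 := by
      rw [mul_pow]; congr 1; rw [div_pow, one_pow]
    rw [hF]
    set x := (1 / (N : ℝ)) * ∑ n ∈ Finset.Icc 1 N,
        (cc (W n ω + H n ω + T n ω) - cc (W n ω + H n ω)) with hxd
    set y := (1 / (N : ℝ)) * ∑ n ∈ Finset.Icc 1 N,
        (cc (W n ω + H n ω) - cc (W n ω)) with hyd
    set v := (1 / (N : ℝ)) * ∑ n ∈ Finset.Icc 1 N, (cc (W n ω) - Q) with hvd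
    rw [← hzz]
    nlinarith [sq_nonneg (x - y), sq_nonneg (y - v), sq_nonneg (x - v), hx, hy]
  -- integrability of the bound
  have hHi : ∀ n, Integrable (fun ω => (H n ω) ^ 2) coins := fun n =>
    integrable_sgsum_sq _ _
  have hi1 : Integrable (fun ω => ∑ n ∈ Finset.Icc 1 N, (2 * π) ^ 2 * (H n ω) ^ 2) coins :=
    integrable_finsetSum _ fun n _ => (hHi n).const_mul _
  have hi2 : Integrable (fun ω => (∑ n ∈ Finset.Icc 1 N, (cc (W n ω) - Q)) ^ 2) coins := by
    refine integrable_of_bdd _ ?_ ((∑ n ∈ Finset.Icc 1 N, (1 + |Q|)) ^ 2) fun ω => ?_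
    · refine Measurable.pow_const ?_ 2
      refine Finset.measurable_sum _ fun n _ => ?_
      exact (measurable_cc.comp (measurable_sgsum _ _)).sub_const _
    · rw [abs_pow]
      refine pow_le_pow_left₀ (abs_nonneg _) ?_ 2
      refine (Finset.abs_sum_le_sum_abs _ _).trans (Finset.sum_le_sum fun n _ => ?_)
      refine (abs_sub _ _).trans ?_
      exact add_le_add (abs_cc_le _) le_rfl
  have hi3 : Integrable (fun ω => 3 * (α ^ 2 +
      (1 / (N : ℝ)) * ∑ n ∈ Finset.Icc 1 N, (2 * π) ^ 2 * (H n ω) ^ 2 +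
        (1 / (N : ℝ) ^ 2) * (∑ n ∈ Finset.Icc 1 N, (cc (W n ω) - Q)) ^ 2)) coins :=
    (((integrable_const _).add (hi1.const_mul _)).add (hi2.const_mul _)).const_mul _
  have hmono := integral_mono_of_nonneg (μ := coins)
    (Filter.Eventually.of_forall fun ω => sq_nonneg (F β t K N (signedPowerSum β⁻¹ ω) - Q)) hi3
    (Filter.Eventually.of_forall hpt)
  refine hmono.trans ?_
  have j1 : Integrable (fun ω => (1 / (N : ℝ)) *
      ∑ n ∈ Finset.Icc 1 N, (2 * π) ^ 2 * (H n ω) ^ 2) coins := hi1.const_mul _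
  have j2 : Integrable (fun ω => (1 / (N : ℝ) ^ 2) *
      (∑ n ∈ Finset.Icc 1 N, (cc (W n ω) - Q)) ^ 2) coins := hi2.const_mul _
  have j3 : Integrable (fun ω => α ^ 2 + (1 / (N : ℝ)) *
      ∑ n ∈ Finset.Icc 1 N, (2 * π) ^ 2 * (H n ω) ^ 2) coins := (integrable_const _).add j1
  rw [integral_const_mul, integral_add j3 j2, integral_add (integrable_const _) j1,
    integral_const_mul, integral_const_mul, integral_const,
    integral_finsetSum _ fun n _ => (hHi n).const_mul _]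
  simp only [probReal_univ, smul_eq_mul, one_mul]
  refine mul_le_mul_of_nonneg_left ?_ (by norm_num)
  refine add_le_add (add_le_add le_rfl ?_) ?_
  · have h5 : ∀ n ∈ Finset.Icc 1 N, ∫ ω, (2 * π) ^ 2 * (H n ω) ^ 2 ∂coins ≤
        16 * π ^ 2 * N * A ^ 2 := by
      intro n hn
      rw [Finset.mem_Icc] at hn
      rw [integral_const_mul, hH]
      simp only
      rw [integral_sgsum_sq]
      have h6 : ∑ i ∈ Finset.range n, (w n i) ^ 2 ≤ ∑ i ∈ Finset.range n, (2 * A) ^ 2 := by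
        refine Finset.sum_le_sum fun i hi => ?_
        rw [← sq_abs]
        exact pow_le_pow_left₀ (abs_nonneg _) (hwle n i hi) 2
      rw [Finset.sum_const, Finset.card_range, nsmul_eq_mul] at h6
      have hnN : (n : ℝ) ≤ N := by exact_mod_cast hn.2
      have h7 : (n : ℝ) * (2 * A) ^ 2 ≤ N * (2 * A) ^ 2 :=
        mul_le_mul_of_nonneg_right hnN (sq_nonneg _)
      calc (2 * π) ^ 2 * ∑ i ∈ Finset.range n, (w n i) ^ 2
          ≤ (2 * π) ^ 2 * (N * (2 * A) ^ 2) :=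
            mul_le_mul_of_nonneg_left (h6.trans h7) (sq_nonneg _)
        _ = 16 * π ^ 2 * N * A ^ 2 := by ring
    calc 1 / (N : ℝ) * ∑ n ∈ Finset.Icc 1 N, ∫ ω, (2 * π) ^ 2 * (H n ω) ^ 2 ∂coins
        ≤ 1 / (N : ℝ) * ∑ n ∈ Finset.Icc 1 N, 16 * π ^ 2 * N * A ^ 2 :=
          mul_le_mul_of_nonneg_left (Finset.sum_le_sum h5) (by positivity)
      _ = 16 * π ^ 2 * N * A ^ 2 := by
          rw [Finset.sum_const, Nat.card_Icc, nsmul_eq_mul, Nat.add_sub_cancel]
          field_simp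
  · have h8 := window_moment K N (fun n i => t * β ^ ((n : ℤ) + K - i)) Q
      (fun n => prod_window β t K n)
    calc 1 / (N : ℝ) ^ 2 * ∫ ω, (∑ n ∈ Finset.Icc 1 N, (cc (W n ω) - Q)) ^ 2 ∂coins
        ≤ 1 / (N : ℝ) ^ 2 * (N * (4 * K + 1)) :=
          mul_le_mul_of_nonneg_left h8 (by positivity)
      _ = (4 * K + 1) / N := by field_simp

end Crest.Agent.R104
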