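import Mathlib

/-!
P4 of the S0137 blueprint: an L² separation criterion for mutual singularity with Lebesgue measure.
-/

open MeasureTheory Filter Set
open scoped ENNReal NNReal Topology

namespace Crest.Agent.R104

/-- If `μ` is a probability measure carried by `[-R, R]` and for every `κ > 0` there are a
continuous function `F` and `q ≠ 0` with `∫ (F - q)² dμ ≤ κ q²` and `∫_{[-R,R]} F² ≤ κ q²`,
then `μ` is singular with respect to Lebesgue measure. -/
theorem mutuallySingular_of_l2_separation {μ : Measure ℝ} [IsProbabilityMeasure μ] {R : ℝ}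
    (hsupp : μ (Set.Icc (-R) R)ᶜ = 0)
    (h : ∀ κ : ℝ, 0 < κ → ∃ (F : ℝ → ℝ) (q : ℝ), Continuous F ∧ q ≠ 0 ∧
      Integrable (fun x => (F x - q) ^ 2) μ ∧
      ∫ x, (F x - q) ^ 2 ∂μ ≤ κ * q ^ 2 ∧
      ∫ x in Set.Icc (-R) R, (F x) ^ 2 ≤ κ * q ^ 2) :
    μ ⟂ₘ (volume : Measure ℝ) := by
  -- choose the sequence
  have hκ : ∀ k : ℕ, (0 : ℝ) < (1 / 2 : ℝ) ^ k / 4 := fun k => by positivity
  choose F q hFc hq hint hμ hvol using fun k : ℕ => h ((1 / 2 : ℝ) ^ k / 4) (hκ k)
  -- the sets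
  let A : ℕ → Set ℝ := fun k => {x | x ∈ Set.Icc (-R) R ∧ (q k) ^ 2 / 4 ≤ (F k x) ^ 2}
  have hAm : ∀ k, MeasurableSet (A k) := by
    intro k
    apply MeasurableSet.inter measurableSet_Icc
    exact measurableSet_le measurable_const ((hFc k).measurable.pow_const 2)
  have hqpos : ∀ k, 0 < (q k) ^ 2 / 4 := fun k => by
    have := hq k
    positivity
  -- volume bound
  have hAvol : ∀ k, volume (A k) ≤ ENNReal.ofReal ((1 / 2 : ℝ) ^ k) := by
    intro k
    have hF2 : IntegrableOn (fun x => (F k x) ^ 2) (Set.Icc (-R) R) volume :=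
      ((hFc k).pow 2).continuousOn.integrableOn_Icc
    have h1 := mul_meas_ge_le_integral_of_nonneg (μ := volume.restrict (Set.Icc (-R) R))
      (f := fun x => (F k x) ^ 2) (Eventually.of_forall fun x => sq_nonneg _) hF2
      ((q k) ^ 2 / 4)
    have h2 : (volume.restrict (Set.Icc (-R) R)).real {x | (q k) ^ 2 / 4 ≤ (F k x) ^ 2}
        ≤ (1 / 2 : ℝ) ^ k := by
      have h3 := h1.trans (hvol k)
      have h4 : (q k) ^ 2 / 4 * (volume.restrict (Set.Icc (-R) R)).real
          {x | (q k) ^ 2 / 4 ≤ (F k x) ^ 2} ≤ (q k) ^ 2 / 4 * (1 / 2 : ℝ) ^ k := by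
        calc _ ≤ (1 / 2 : ℝ) ^ k / 4 * (q k) ^ 2 := h3
          _ = _ := by ring
      exact le_of_mul_le_mul_left h4 (hqpos k)
    have h5 : volume (A k) = (volume.restrict (Set.Icc (-R) R))
        {x | (q k) ^ 2 / 4 ≤ (F k x) ^ 2} := by
      rw [Measure.restrict_apply (measurableSet_le measurable_const
        ((hFc k).measurable.pow_const 2))]
      congr 1
      ext x
      simp only [A, mem_ofPred_eq, mem_inter_iff]
      tauto
    rw [h5]
    have hfin : (volume.restrict (Set.Icc (-R) R)) {x | (q k) ^ 2 / 4 ≤ (F k x) ^ 2} ≠ ∞ := by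
      exact measure_ne_top _ _
    rw [← ENNReal.ofReal_toReal hfin]
    exact ENNReal.ofReal_le_ofReal h2
  -- μ bound
  have hAμ : ∀ k, μ (A k)ᶜ ≤ ENNReal.ofReal ((1 / 2 : ℝ) ^ k) := by
    intro k
    have h1 := mul_meas_ge_le_integral_of_nonneg (μ := μ)
      (f := fun x => (F k x - q k) ^ 2) (Eventually.of_forall fun x => sq_nonneg _) (hint k)
      ((q k) ^ 2 / 4)
    have h2 : μ.real {x | (q k) ^ 2 / 4 ≤ (F k x - q k) ^ 2} ≤ (1 / 2 : ℝ) ^ k := by
      have h3 := h1.trans (hμ k)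
      have h4 : (q k) ^ 2 / 4 * μ.real {x | (q k) ^ 2 / 4 ≤ (F k x - q k) ^ 2}
          ≤ (q k) ^ 2 / 4 * (1 / 2 : ℝ) ^ k := by
        calc _ ≤ (1 / 2 : ℝ) ^ k / 4 * (q k) ^ 2 := h3
          _ = _ := by ring
      exact le_of_mul_le_mul_left h4 (hqpos k)
    have hsub : (A k)ᶜ ⊆ (Set.Icc (-R) R)ᶜ ∪ {x | (q k) ^ 2 / 4 ≤ (F k x - q k) ^ 2} := by
      intro x hx
      by_cases hxR : x ∈ Set.Icc (-R) R
      · right
        have hx' : (F k x) ^ 2 < (q k) ^ 2 / 4 := by
          by_contra hcon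
          exact hx ⟨hxR, not_lt.mp hcon⟩
        change (q k) ^ 2 / 4 ≤ (F k x - q k) ^ 2
        -- |F| < |q|/2 so |F - q| > |q|/2
        have h5 : |F k x| < |q k| / 2 := by
          apply abs_lt_of_sq_lt_sq _ (by positivity)
          rw [div_pow, sq_abs]; norm_num; linarith
        have h6 : |q k| / 2 ≤ |F k x - q k| := by
          have := abs_sub_abs_le_abs_sub (q k) (F k x)
          rw [abs_sub_comm] at this
          linarith
        have h7 : (|q k| / 2) ^ 2 ≤ |F k x - q k| ^ 2 := by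
          apply pow_le_pow_left₀ (by positivity) h6
        rw [div_pow, sq_abs, sq_abs] at h7
        norm_num at h7
        exact h7
      · left; exact hxR
    calc μ (A k)ᶜ ≤ μ ((Set.Icc (-R) R)ᶜ ∪ {x | (q k) ^ 2 / 4 ≤ (F k x - q k) ^ 2}) :=
          measure_mono hsub
      _ ≤ μ (Set.Icc (-R) R)ᶜ + μ {x | (q k) ^ 2 / 4 ≤ (F k x - q k) ^ 2} := measure_union_le _ _
      _ = μ {x | (q k) ^ 2 / 4 ≤ (F k x - q k) ^ 2} := by rw [hsupp, zero_add]
      _ ≤ ENNReal.ofReal ((1 / 2 : ℝ) ^ k) := by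
          rw [← ENNReal.ofReal_toReal (measure_ne_top μ _)]
          exact ENNReal.ofReal_le_ofReal h2
  have hsum : ∑' k : ℕ, ENNReal.ofReal ((1 / 2 : ℝ) ^ k) ≠ ∞ := by
    rw [← ENNReal.ofReal_tsum_of_nonneg (fun k => by positivity)
      (summable_geometric_of_lt_one (by norm_num) (by norm_num))]
    exact ENNReal.ofReal_ne_top
  -- take the limsup set
  refine ⟨(limsup A atTop)ᶜ, (MeasurableSet.measurableSet_limsup hAm).compl, ?_, ?_⟩
  · -- μ of complement of the limsup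
    have h1 : ∑' k, μ (A k)ᶜ ≠ ∞ := ne_top_of_le_ne_top hsum (ENNReal.tsum_le_tsum hAμ)
    have h2 := ae_eventually_notMem h1
    rw [ae_iff] at h2
    refine measure_mono_null ?_ h2
    intro x hx
    simp only [mem_ofPred_eq, not_eventually, mem_compl_iff, not_not] at hx ⊢
    rw [mem_limsup_iff_frequently_mem, not_frequently] at hx
    exact hx.frequently
  · rw [compl_compl]
    exact measure_limsup_atTop_eq_zero
      (ne_top_of_le_ne_top hsum (ENNReal.tsum_le_tsum hAvol))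

end Crest.Agent.R104
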