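import Mathlib

/-!
P3 of the S0137 blueprint: the square integral over `[-R,R]` of an average of separated cosines.
-/

open MeasureTheory Filter Set
open scoped ENNReal NNReal Topology

namespace Crest.Agent.R104

/-- `∫_{-R}^{R} cos (2π a x) dx` is at most `1/(π|a|)` in absolute value. -/
lemma abs_integral_cos_le (a R : ℝ) (ha : a ≠ 0) :
    |∫ x in (-R)..R, Real.cos (2 * Real.pi * a * x)| ≤ 1 / (Real.pi * |a|) := by
  have hpi := Real.pi_pos
  have hne : 2 * Real.pi * a ≠ 0 := by positivity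
  have h1 : ∫ x in (-R)..R, Real.cos (2 * Real.pi * a * x)
      = (2 * Real.pi * a)⁻¹ * (Real.sin (2 * Real.pi * a * R) - Real.sin (2 * Real.pi * a * (-R))) := by
    rw [intervalIntegral.integral_comp_mul_left (fun x => Real.cos x) hne, integral_cos]
    simp
  rw [h1, abs_mul, abs_inv]
  have h2 : |Real.sin (2 * Real.pi * a * R) - Real.sin (2 * Real.pi * a * (-R))| ≤ 2 := by
    have h3 := Real.abs_sin_le_one (2 * Real.pi * a * R)
    have h4 := Real.abs_sin_le_one (2 * Real.pi * a * (-R))
    calc _ ≤ |Real.sin (2 * Real.pi * a * R)| + |Real.sin (2 * Real.pi * a * (-R))| := abs_sub _ _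
      _ ≤ 2 := by linarith
  have h5 : |2 * Real.pi * a| = 2 * Real.pi * |a| := by
    rw [abs_mul, abs_of_pos (by positivity : (0:ℝ) < 2 * Real.pi)]
  rw [h5]
  have ha' : 0 < |a| := abs_pos.mpr ha
  calc (2 * Real.pi * |a|)⁻¹ * |Real.sin (2 * Real.pi * a * R) - Real.sin (2 * Real.pi * a * (-R))|
      ≤ (2 * Real.pi * |a|)⁻¹ * 2 := by gcongr
    _ = 1 / (Real.pi * |a|) := by field_simp

/-- off-diagonal product of cosines -/
lemma abs_integral_cos_mul_cos_le (a b R D : ℝ) (hD : 0 < D) (h1 : D ≤ |a - b|)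
    (h2 : D ≤ |a + b|) :
    |∫ x in (-R)..R, Real.cos (2 * Real.pi * a * x) * Real.cos (2 * Real.pi * b * x)|
      ≤ 1 / (Real.pi * D) := by
  have hpi := Real.pi_pos
  have hc : ∀ c : ℝ, IntervalIntegrable (fun x => Real.cos (2 * Real.pi * c * x)) volume (-R) R :=
    fun c => (by fun_prop : Continuous fun x => Real.cos (2 * Real.pi * c * x)).intervalIntegrable _ _
  have h3 : ∀ x : ℝ, Real.cos (2 * Real.pi * a * x) * Real.cos (2 * Real.pi * b * x)
      = (1 / 2) * (Real.cos (2 * Real.pi * (a - b) * x) + Real.cos (2 * Real.pi * (a + b) * x)) := by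
    intro x
    have e1 : 2 * Real.pi * (a - b) * x = 2 * Real.pi * a * x - 2 * Real.pi * b * x := by ring
    have e2 : 2 * Real.pi * (a + b) * x = 2 * Real.pi * a * x + 2 * Real.pi * b * x := by ring
    rw [e1, e2, Real.cos_sub, Real.cos_add]
    ring
  simp_rw [h3]
  rw [intervalIntegral.integral_const_mul, intervalIntegral.integral_add (hc _) (hc _)]
  have hab : a - b ≠ 0 := fun h => by rw [h, abs_zero] at h1; linarith
  have hab' : a + b ≠ 0 := fun h => by rw [h, abs_zero] at h2; linarith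
  have h4 := abs_integral_cos_le (a - b) R hab
  have h5 := abs_integral_cos_le (a + b) R hab'
  have h6 : 1 / (Real.pi * |a - b|) ≤ 1 / (Real.pi * D) := by gcongr
  have h7 : 1 / (Real.pi * |a + b|) ≤ 1 / (Real.pi * D) := by gcongr
  rw [abs_mul]
  calc |(1:ℝ) / 2| * |(∫ x in (-R)..R, Real.cos (2 * Real.pi * (a - b) * x)) +
        ∫ x in (-R)..R, Real.cos (2 * Real.pi * (a + b) * x)|
      ≤ (1 / 2) * (|∫ x in (-R)..R, Real.cos (2 * Real.pi * (a - b) * x)| +
        |∫ x in (-R)..R, Real.cos (2 * Real.pi * (a + b) * x)|) := by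
        rw [abs_of_pos (by norm_num : (0:ℝ) < 1 / 2)]
        gcongr
        exact abs_add_le _ _
    _ ≤ (1 / 2) * (1 / (Real.pi * D) + 1 / (Real.pi * D)) := by
        gcongr
        · exact h4.trans h6
        · exact h5.trans h7
    _ = 1 / (Real.pi * D) := by ring

/-- P3, general form: average of `N` cosines with `D`-separated frequencies. -/
theorem integral_sq_avg_cos_le (N : ℕ) (hN : 0 < N) (T : ℕ → ℝ) (R D : ℝ) (hR : 0 ≤ R)
    (hD : 0 < D)
    (hsub : ∀ i ∈ Finset.range N, ∀ j ∈ Finset.range N, i ≠ j → D ≤ |T i - T j|)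
    (hadd : ∀ i ∈ Finset.range N, ∀ j ∈ Finset.range N, i ≠ j → D ≤ |T i + T j|) :
    ∫ x in Set.Icc (-R) R, ((1 / (N : ℝ)) * ∑ n ∈ Finset.range N, Real.cos (2 * Real.pi * T n * x)) ^ 2
      ≤ 2 * R / N + 1 / (Real.pi * D) := by
  have hpi := Real.pi_pos
  have hNpos : (0 : ℝ) < N := by exact_mod_cast hN
  rw [integral_Icc_eq_integral_Ioc, ← intervalIntegral.integral_of_le (by linarith)]
  have h1 : ∀ x : ℝ, ((1 / (N : ℝ)) * ∑ n ∈ Finset.range N, Real.cos (2 * Real.pi * T n * x)) ^ 2
      = (1 / (N : ℝ) ^ 2) * ∑ i ∈ Finset.range N, ∑ j ∈ Finset.range N,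
        Real.cos (2 * Real.pi * T i * x) * Real.cos (2 * Real.pi * T j * x) := by
    intro x
    rw [mul_pow, sq (∑ n ∈ Finset.range N, Real.cos (2 * Real.pi * T n * x)),
      Finset.sum_mul_sum]
    ring
  simp_rw [h1]
  have hcont : ∀ i j : ℕ, IntervalIntegrable (fun x => Real.cos (2 * Real.pi * T i * x) *
      Real.cos (2 * Real.pi * T j * x)) volume (-R) R :=
    fun i j => (by fun_prop : Continuous fun x => Real.cos (2 * Real.pi * T i * x) *
      Real.cos (2 * Real.pi * T j * x)).intervalIntegrable _ _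
  rw [intervalIntegral.integral_const_mul]
  rw [intervalIntegral.integral_finsetSum (fun i _ =>
    (by fun_prop : Continuous fun x => ∑ j ∈ Finset.range N,
      Real.cos (2 * Real.pi * T i * x) * Real.cos (2 * Real.pi * T j * x)).intervalIntegrable _ _)]
  have h2 : ∀ i ∈ Finset.range N, ∫ x in (-R)..R, ∑ j ∈ Finset.range N,
      Real.cos (2 * Real.pi * T i * x) * Real.cos (2 * Real.pi * T j * x)
      ≤ 2 * R + N * (1 / (Real.pi * D)) := by
    intro i hi
    rw [intervalIntegral.integral_finsetSum (fun j _ => hcont i j)]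
    rw [← Finset.add_sum_erase _ _ hi]
    have h3 : ∫ x in (-R)..R, Real.cos (2 * Real.pi * T i * x) * Real.cos (2 * Real.pi * T i * x)
        ≤ 2 * R := by
      calc ∫ x in (-R)..R, Real.cos (2 * Real.pi * T i * x) * Real.cos (2 * Real.pi * T i * x)
          ≤ ∫ x in (-R)..R, (1 : ℝ) := by
            apply intervalIntegral.integral_mono_on (by linarith) (hcont i i)
              intervalIntegrable_const
            intro x _
            have := Real.cos_sq_le_one (2 * Real.pi * T i * x)
            rw [sq] at this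
            exact this
        _ = 2 * R := by simp; ring
    have h4 : ∑ j ∈ (Finset.range N).erase i, ∫ x in (-R)..R,
        Real.cos (2 * Real.pi * T i * x) * Real.cos (2 * Real.pi * T j * x)
        ≤ N * (1 / (Real.pi * D)) := by
      calc ∑ j ∈ (Finset.range N).erase i, ∫ x in (-R)..R,
            Real.cos (2 * Real.pi * T i * x) * Real.cos (2 * Real.pi * T j * x)
          ≤ ∑ j ∈ (Finset.range N).erase i, (1 / (Real.pi * D)) := by
            apply Finset.sum_le_sum
            intro j hj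
            rw [Finset.mem_erase] at hj
            exact (le_abs_self _).trans (abs_integral_cos_mul_cos_le _ _ R D hD
              (hsub i hi j hj.2 (Ne.symm hj.1)) (hadd i hi j hj.2 (Ne.symm hj.1)))
        _ ≤ N * (1 / (Real.pi * D)) := by
            rw [Finset.sum_const, nsmul_eq_mul]
            have : (((Finset.range N).erase i).card : ℝ) ≤ N := by
              have := Finset.card_erase_le (s := Finset.range N) (a := i)
              rw [Finset.card_range] at this
              exact_mod_cast this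
            gcongr
    linarith
  calc (1 / (N : ℝ) ^ 2) * ∑ i ∈ Finset.range N, ∫ x in (-R)..R, ∑ j ∈ Finset.range N,
        Real.cos (2 * Real.pi * T i * x) * Real.cos (2 * Real.pi * T j * x)
      ≤ (1 / (N : ℝ) ^ 2) * ∑ i ∈ Finset.range N, (2 * R + N * (1 / (Real.pi * D))) := by
        gcongr with i hi
        exact h2 i hi
    _ = 2 * R / N + 1 / (Real.pi * D) := by
        rw [Finset.sum_const, Finset.card_range, nsmul_eq_mul]
        field_simp

/-- P3 for the frequencies `t β^(n+K)`, `1 ≤ n ≤ N`. -/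
theorem integral_sq_avg_cos_geom_le (β t A R : ℝ) (K N : ℕ) (hβ : 1 < β) (ht : 1 ≤ t)
    (hA : t * β⁻¹ ^ K ≤ A) (hN : 0 < N) (hR : 0 ≤ R) :
    ∫ x in Set.Icc (-R) R,
      ((1 / (N : ℝ)) * ∑ n ∈ Finset.range N, Real.cos (2 * Real.pi * (t * β ^ (n + 1 + K)) * x)) ^ 2
      ≤ 2 * R / N + A / (Real.pi * (β - 1)) := by
  have hpi := Real.pi_pos
  have hβ0 : 0 < β := by linarith
  have hβ1 : 0 < β - 1 := by linarith
  have ht0 : 0 < t := by linarith
  set D : ℝ := t * β ^ K * (β - 1) with hDdef
  have hD : 0 < D := by positivity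
  -- separation
  have key : ∀ i j : ℕ, i < j → D ≤ t * β ^ (j + 1 + K) - t * β ^ (i + 1 + K) := by
    intro i j hij
    have h1 : β ^ (i + 1) ≤ β ^ j := pow_le_pow_right₀ hβ.le hij
    have h2 : (1 : ℝ) ≤ β ^ j := one_le_pow₀ hβ.le
    calc D = t * β ^ K * (β - 1) * 1 := by rw [hDdef]; ring
      _ ≤ t * β ^ K * (β - 1) * β ^ j := by gcongr
      _ = t * β ^ K * (β ^ (j + 1) - β ^ j) := by ring
      _ ≤ t * β ^ K * (β ^ (j + 1) - β ^ (i + 1)) := by gcongr
      _ = t * β ^ (j + 1 + K) - t * β ^ (i + 1 + K) := by ring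
  have hsub : ∀ i ∈ Finset.range N, ∀ j ∈ Finset.range N, i ≠ j →
      D ≤ |t * β ^ (i + 1 + K) - t * β ^ (j + 1 + K)| := by
    intro i _ j _ hij
    rcases lt_or_gt_of_ne hij with h | h
    · rw [abs_sub_comm]; exact (key i j h).trans (le_abs_self _)
    · exact (key j i h).trans (le_abs_self _)
  have hadd : ∀ i ∈ Finset.range N, ∀ j ∈ Finset.range N, i ≠ j →
      D ≤ |t * β ^ (i + 1 + K) + t * β ^ (j + 1 + K)| := by
    intro i _ j _ hij
    have hp1 : 0 < t * β ^ (i + 1 + K) := by positivity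
    have hp2 : 0 < t * β ^ (j + 1 + K) := by positivity
    rw [abs_of_pos (by positivity)]
    rcases lt_or_gt_of_ne hij with h | h
    · have := key i j h; linarith
    · have := key j i h; linarith
  have h1 := integral_sq_avg_cos_le N hN (fun n => t * β ^ (n + 1 + K)) R D hR hD hsub hadd
  refine h1.trans ?_
  have h2 : 1 / (Real.pi * D) ≤ A / (Real.pi * (β - 1)) := by
    have hA' : t ≤ A * β ^ K := by
      have h3 : t * β⁻¹ ^ K * β ^ K ≤ A * β ^ K := by gcongr
      rw [mul_assoc, ← mul_pow, inv_mul_cancel₀ hβ0.ne', one_pow, mul_one] at h3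
      exact h3
    have h4 : 1 ≤ A * (t * β ^ K) := by
      have hAK : 0 < A * β ^ K := by linarith
      nlinarith
    rw [div_le_div_iff₀ (by positivity) (by positivity)]
    calc 1 * (Real.pi * (β - 1)) ≤ (A * (t * β ^ K)) * (Real.pi * (β - 1)) := by gcongr
      _ = A * (Real.pi * D) := by rw [hDdef]; ring
  linarith

end Crest.Agent.R104
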