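import Crest.Agent.R104.Defs
import Crest.Agent.R104.LebSide

/-!
Task D for S0137.
-/

set_option autoImplicit false

namespace Crest.Agent.R104

open MeasureTheory Crest.AnalysisR
open scoped Real

/-- TASK D: Lebesgue estimate -/
theorem taskD (β : ℝ) (h1 : 1 < β) (t A : ℝ) (K N : ℕ) (hN : 0 < N) (ht : 1 ≤ t) (_hA : 0 < A)
    (hK : t * β ^ (-(K : ℤ)) ≤ A) (R : ℝ) (hR : 0 ≤ R) :
    ∫ x in (-R)..R, (F β t K N x) ^ 2 ≤ 2 * R / N + A / (π * (β - 1)) := by
  have hK' : t * β⁻¹ ^ K ≤ A := by
    rwa [zpow_neg, zpow_natCast, ← inv_pow] at hK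
  have h2 := integral_sq_avg_cos_geom_le β t A R K N h1 ht hK' hN hR
  rw [intervalIntegral.integral_of_le (by linarith), ← integral_Icc_eq_integral_Ioc]
  refine le_trans (le_of_eq ?_) h2
  congr 1
  ext x
  unfold F cc
  congr 2
  have e : Finset.Icc 1 N = (Finset.range N).image (· + 1) := by
    ext n
    simp only [Finset.mem_Icc, Finset.mem_image, Finset.mem_range]
    constructor
    · intro h
      exact ⟨n - 1, by omega, by omega⟩
    · rintro ⟨m, hm, rfl⟩
      omega
  rw [e, Finset.sum_image (by intro a _ b _ h; simpa using h)]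
  apply Finset.sum_congr rfl
  intro n _
  congr 1
  ring

end Crest.Agent.R104
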