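import Mathlib
import Crest.Prelude.Def_BernoulliConv

/-!
Common definitions for S0137 (rid 104).
-/

set_option autoImplicit false

namespace Crest.Agent.R104

open MeasureTheory Crest.AnalysisR
open scoped Real

/-- `cc x = cos (2 π x)` -/
noncomputable def cc (x : ℝ) : ℝ := Real.cos (2 * π * x)

/-- The fair coin product measure. -/
noncomputable abbrev coins : Measure (ℕ → Bool) := Measure.infinitePi (fun _ : ℕ => fairCoin)

/-- sign of a bit -/
noncomputable def sg (b : Bool) : ℝ := if b then 1 else -1

/-- The averaged test function. -/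
noncomputable def F (β t : ℝ) (K N : ℕ) (x : ℝ) : ℝ :=
  (1 / (N : ℝ)) * ∑ n ∈ Finset.Icc 1 N, cc (t * β ^ (n + K) * x)

/-- The main product. -/
noncomputable def q (β t : ℝ) (K : ℕ) : ℝ :=
  ∏ m ∈ Finset.Icc (-(K : ℤ)) K, cc (t * β ^ m)

end Crest.Agent.R104
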