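import Crest.Agent.R104.Defs
import Crest.Agent.R104.Criterion

/-!
Task E1 for S0137.
-/

set_option autoImplicit false

namespace Crest.Agent.R104

open MeasureTheory Crest.AnalysisR
open scoped Real

/-- TASK E1: singularity criterion -/
theorem taskE1 (μ : Measure ℝ) [IsProbabilityMeasure μ] (R : ℝ) (hR : 0 ≤ R)
    (hsupp : μ (Set.Icc (-R) R)ᶜ = 0)
    (h : ∀ κ : ℝ, 0 < κ → ∃ (f : ℝ → ℝ) (c : ℝ), Continuous f ∧ 0 < |c| ∧
      (∃ C, ∀ x, |f x| ≤ C) ∧
      ∫ x, (f x - c) ^ 2 ∂μ ≤ κ * c ^ 2 ∧ ∫ x in (-R)..R, (f x) ^ 2 ≤ κ * c ^ 2) :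
    μ.MutuallySingular (volume : Measure ℝ) := by
  apply mutuallySingular_of_l2_separation hsupp
  intro κ hκ
  obtain ⟨f, c, hf, hc, ⟨C, hC⟩, h1, h2⟩ := h κ hκ
  refine ⟨f, c, hf, abs_pos.mp hc, ?_, h1, ?_⟩
  · refine Integrable.of_bound (C := (C + |c|) ^ 2) ?_ ?_
    · exact ((hf.sub continuous_const).pow 2).aestronglyMeasurable
    · refine Filter.Eventually.of_forall fun x => ?_
      rw [Real.norm_eq_abs, abs_pow]
      apply pow_le_pow_left₀ (abs_nonneg _)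
      calc |f x - c| ≤ |f x| + |c| := abs_sub _ _
        _ ≤ C + |c| := by gcongr; exact hC x
  · rwa [intervalIntegral.integral_of_le (by linarith), ← integral_Icc_eq_integral_Ioc] at h2

end Crest.Agent.R104
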