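import Crest.Agent.R104.Defs

/-! S0137 (rid 104): task E2, measurability and boundedness of the signed power sum. -/

set_option autoImplicit false

namespace Crest.Agent.R104

open MeasureTheory Crest.AnalysisR

/-- TASK E2: `signedPowerSum` is continuous/measurable with the bound -/
theorem taskE2 (β : ℝ) (h1 : 1 < β) :
    Measurable (signedPowerSum β⁻¹) ∧ ∀ ω, |signedPowerSum β⁻¹ ω| ≤ β / (β - 1) := by
  have hβ0 : 0 < β := by linarith
  have hi0 : 0 ≤ β⁻¹ := inv_nonneg.2 hβ0.le
  have hi1 : β⁻¹ < 1 := inv_lt_one_of_one_lt₀ h1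
  have hb : ∀ (n : ℕ) (ω : ℕ → Bool), ‖(if ω n then β⁻¹ ^ n else -(β⁻¹ ^ n))‖ ≤ β⁻¹ ^ n := by
    intro n ω
    have : |β⁻¹ ^ n| = β⁻¹ ^ n := abs_of_nonneg (pow_nonneg hi0 n)
    split_ifs
    · rw [Real.norm_eq_abs, this]
    · rw [norm_neg, Real.norm_eq_abs, this]
  refine ⟨Continuous.measurable ?_, fun ω => ?_⟩
  · unfold signedPowerSum
    refine continuous_tsum (fun n => ?_) (summable_geometric_of_lt_one hi0 hi1) hb
    have hc : Continuous (fun b : Bool => (if b then β⁻¹ ^ n else -(β⁻¹ ^ n))) :=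
      continuous_of_discreteTopology
    exact hc.comp (continuous_apply n)
  · have h2 := tsum_of_norm_bounded (hasSum_geometric_of_lt_one hi0 hi1) (fun n => hb n ω)
    have h3 : (1 - β⁻¹)⁻¹ = β / (β - 1) := by
      have : β - 1 ≠ 0 := by linarith
      have h4 : (1 - β⁻¹) = (β - 1) / β := by field_simp
      rw [h4, inv_div]
    rw [← h3]
    exact h2

end Crest.Agent.R104
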