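import Crest.Agent.R104.Defs
import Crest.Agent.R104.A1
import Crest.Agent.R104.C1
import Crest.Agent.R104.E2

/-! S0137 (rid 104): assembly of the tasks. -/

set_option autoImplicit false

namespace Crest.Agent.R104

open MeasureTheory Crest.AnalysisR
open scoped Real

theorem continuous_F (β t : ℝ) (K N : ℕ) : Continuous (F β t K N) := by
  unfold F cc
  fun_prop

theorem abs_F_le (β t : ℝ) (K N : ℕ) (x : ℝ) : |F β t K N x| ≤ |1 / (N : ℝ)| * N := by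
  unfold F
  rw [abs_mul]
  refine mul_le_mul_of_nonneg_left ?_ (abs_nonneg _)
  refine (Finset.abs_sum_le_sum_abs _ _).trans ?_
  refine (Finset.sum_le_sum (g := fun _ => (1 : ℝ)) fun i _ => Real.abs_cos_le_one _).trans ?_
  simp

theorem final_of
    (hB : ∀ (β θ : ℝ), 1 < β → IsIntegral ℤ β → IsIntegral ℤ β⁻¹ →
      (∀ m : ℤ, ∃ n : ℤ, β ^ m + β ^ (-m) + 2 * Real.cos (m * θ) = n) →
      ∀ (κ : ℝ), 0 < κ → ∃ (t A : ℝ) (K : ℕ), 1 ≤ t ∧ 0 < A ∧ A ≤ 1 ∧ t * β ^ (-(K : ℤ)) ≤ A ∧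
        (∀ m : ℤ, (K : ℤ) < m → ∃ n : ℤ, |t * β ^ m - n| ≤ 2 * A) ∧
        0 < |q β t K| ∧ ((K : ℝ) + 1) * A ≤ κ * (q β t K) ^ 2)
    (hC2 : ∀ (β : ℝ), 1 < β → ∀ (t A : ℝ) (K N : ℕ), 0 < N → 1 ≤ t → 0 < A →
      t * β ^ (-(K : ℤ)) ≤ A → (∀ m : ℤ, (K : ℤ) < m → ∃ n : ℤ, |t * β ^ m - n| ≤ 2 * A) →
      ∫ ω, (F β t K N (signedPowerSum β⁻¹ ω) - q β t K) ^ 2 ∂coins ≤
        3 * ((2 * π * A / (β - 1)) ^ 2 + 16 * π ^ 2 * N * A ^ 2 + (4 * K + 1) / N))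
    (hD : ∀ (β : ℝ), 1 < β → ∀ (t A : ℝ) (K N : ℕ), 0 < N → 1 ≤ t → 0 < A →
      t * β ^ (-(K : ℤ)) ≤ A → ∀ (R : ℝ), 0 ≤ R →
      ∫ x in (-R)..R, (F β t K N x) ^ 2 ≤ 2 * R / N + A / (π * (β - 1)))
    (hE1 : ∀ (μ : Measure ℝ) [IsProbabilityMeasure μ] (R : ℝ), 0 ≤ R →
      μ (Set.Icc (-R) R)ᶜ = 0 →
      (∀ κ : ℝ, 0 < κ → ∃ (f : ℝ → ℝ) (c : ℝ), Continuous f ∧ 0 < |c| ∧
        (∃ C, ∀ x, |f x| ≤ C) ∧
        ∫ x, (f x - c) ^ 2 ∂μ ≤ κ * c ^ 2 ∧ ∫ x in (-R)..R, (f x) ^ 2 ≤ κ * c ^ 2) →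
      μ.MutuallySingular (volume : Measure ℝ))
    (β : ℝ) (hβ : IsQuarticSalem β) :
    (bernoulliConvolution β⁻¹).MutuallySingular (volume : Measure ℝ) := by
  have h1 : 1 < β := hβ.1
  have hb1 : 0 < β - 1 := by linarith
  obtain ⟨hmeas, hbd⟩ := taskE2 β h1
  obtain ⟨θ, hθ⟩ := taskA1 β hβ
  have hpi : 0 < π := Real.pi_pos
  set R : ℝ := β / (β - 1) with hR
  have hR0 : 0 ≤ R := by rw [hR]; positivity
  have hcoin : IsProbabilityMeasure coins := inferInstance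
  haveI : IsProbabilityMeasure (bernoulliConvolution β⁻¹) :=
    Measure.isProbabilityMeasure_map hmeas.aemeasurable
  refine hE1 (bernoulliConvolution β⁻¹) R hR0 ?_ ?_
  · unfold bernoulliConvolution
    rw [Measure.map_apply hmeas measurableSet_Icc.compl]
    have : signedPowerSum β⁻¹ ⁻¹' (Set.Icc (-R) R)ᶜ = ∅ := by
      ext ω
      simp only [Set.mem_preimage, Set.mem_compl_iff, Set.mem_empty_iff_false, iff_false, not_not]
      exact abs_le.1 (hbd ω)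
    rw [this, measure_empty]
  · intro κ hκ
    set C1 : ℝ := 3 * ((2 * π / (β - 1)) ^ 2 + 32 * π ^ 2 + 4) with hC1
    set C2 : ℝ := 2 * R + 1 / (π * (β - 1)) with hC2'
    have hC1p : 0 < C1 := by rw [hC1]; positivity
    have hC2p : 0 < C2 := by rw [hC2']; positivity
    obtain ⟨t, A, K, ht, hA, hA1, hK, hw, hq, hmain⟩ :=
      hB β θ h1 hβ.2.1 (taskA2 β hβ) hθ (κ / (C1 + C2)) (by positivity)
    set N : ℕ := ⌈1 / A⌉₊ with hN
    have hNpos : 0 < N := Nat.ceil_pos.2 (by positivity)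
    have hNR : (0 : ℝ) < N := by exact_mod_cast hNpos
    have hN1 : 1 / A ≤ N := Nat.le_ceil _
    have hN2 : (N : ℝ) ≤ 2 / A := by
      have h2 : (N : ℝ) < 1 / A + 1 := Nat.ceil_lt_add_one (by positivity)
      have h3 : 1 ≤ 1 / A := by rw [le_div_iff₀ hA]; linarith
      have h4 : 2 / A = 1 / A + 1 / A := by ring
      linarith
    have hAN : 1 / (N : ℝ) ≤ A := by
      rw [div_le_iff₀ hNR]
      have := (div_le_iff₀ hA).1 hN1
      linarith
    have hNA : (N : ℝ) * A ≤ 2 := by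
      have := (le_div_iff₀ hA).1 hN2
      linarith
    have hKA : A ≤ ((K : ℝ) + 1) * A := by nlinarith [(Nat.cast_nonneg K : (0 : ℝ) ≤ K)]
    have hAA : A ^ 2 ≤ A := by nlinarith
    have hK1 : (0 : ℝ) ≤ K := Nat.cast_nonneg K
    have hfin : ∀ C : ℝ, 0 < C → C ≤ C1 + C2 → C * (((K : ℝ) + 1) * A) ≤ κ * (q β t K) ^ 2 := by
      intro C hC hCle
      have hq2 : 0 ≤ (q β t K) ^ 2 := sq_nonneg _
      calc C * (((K : ℝ) + 1) * A) ≤ (C1 + C2) * (((K : ℝ) + 1) * A) := by gcongr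
        _ ≤ (C1 + C2) * (κ / (C1 + C2) * (q β t K) ^ 2) := by gcongr
        _ = κ * (q β t K) ^ 2 := by field_simp
    refine ⟨F β t K N, q β t K, continuous_F β t K N, hq, ⟨_, abs_F_le β t K N⟩, ?_, ?_⟩
    · have hmf : AEStronglyMeasurable (fun x => (F β t K N x - q β t K) ^ 2)
          (bernoulliConvolution β⁻¹) :=
        (((continuous_F β t K N).sub continuous_const).pow 2).aestronglyMeasurable
      have e1 : ∫ x, (F β t K N x - q β t K) ^ 2 ∂(bernoulliConvolution β⁻¹)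
          = ∫ ω, (F β t K N (signedPowerSum β⁻¹ ω) - q β t K) ^ 2 ∂coins := by
        unfold bernoulliConvolution at hmf ⊢
        rw [integral_map hmeas.aemeasurable hmf]
      rw [e1]
      refine (hC2 β h1 t A K N hNpos ht hA hK hw).trans ?_
      refine le_trans ?_ (hfin C1 hC1p (by linarith))
      have t1 : (2 * π * A / (β - 1)) ^ 2 ≤ (2 * π / (β - 1)) ^ 2 * (((K : ℝ) + 1) * A) := by
        have : (2 * π * A / (β - 1)) ^ 2 = (2 * π / (β - 1)) ^ 2 * A ^ 2 := by ring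
        rw [this]
        exact mul_le_mul_of_nonneg_left (hAA.trans hKA) (by positivity)
      have t2 : 16 * π ^ 2 * N * A ^ 2 ≤ 32 * π ^ 2 * (((K : ℝ) + 1) * A) := by
        calc 16 * π ^ 2 * N * A ^ 2 = 16 * π ^ 2 * (N * A) * A := by ring
          _ ≤ 16 * π ^ 2 * 2 * A := by gcongr
          _ = 32 * π ^ 2 * A := by ring
          _ ≤ 32 * π ^ 2 * (((K : ℝ) + 1) * A) := by gcongr
      have t3 : (4 * (K : ℝ) + 1) / N ≤ 4 * (((K : ℝ) + 1) * A) := by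
        calc (4 * (K : ℝ) + 1) / N = (4 * (K : ℝ) + 1) * (1 / N) := by ring
          _ ≤ (4 * (K : ℝ) + 4) * A := by gcongr; norm_num
          _ = 4 * (((K : ℝ) + 1) * A) := by ring
      rw [hC1]
      nlinarith [t1, t2, t3]
    · refine (hD β h1 t A K N hNpos ht hA hK R hR0).trans ?_
      refine le_trans ?_ (hfin C2 hC2p (by linarith))
      have t1 : 2 * R / N ≤ 2 * R * (((K : ℝ) + 1) * A) := by
        calc 2 * R / N = 2 * R * (1 / N) := by ring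
          _ ≤ 2 * R * (((K : ℝ) + 1) * A) := by
            apply mul_le_mul_of_nonneg_left (hAN.trans hKA) (by positivity)
      have t2 : A / (π * (β - 1)) ≤ 1 / (π * (β - 1)) * (((K : ℝ) + 1) * A) := by
        calc A / (π * (β - 1)) = 1 / (π * (β - 1)) * A := by ring
          _ ≤ 1 / (π * (β - 1)) * (((K : ℝ) + 1) * A) := by gcongr
      rw [hC2']
      linarith [t1, t2]

end Crest.Agent.R104
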