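import Crest.Agent.R104.Defs

/-!
Skeleton (statements only) for S0137.  Tasks A-E.
-/

set_option autoImplicit false

namespace Crest.Agent.R104.Skel

open MeasureTheory Crest.AnalysisR
open scoped Real
open Crest.Agent.R104

/-- TASK A1: algebraic input -/
theorem taskA1 (β : ℝ) (hβ : IsQuarticSalem β) :
    ∃ θ : ℝ, ∀ m : ℤ, ∃ n : ℤ, β ^ m + β ^ (-m) + 2 * Real.cos (m * θ) = n := by
  sorry

/-- TASK A2: `β⁻¹` is integral -/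
theorem taskA2 (β : ℝ) (hβ : IsQuarticSalem β) : IsIntegral ℤ β⁻¹ := by
  sorry

/-- TASK B: main arithmetic claim -/
theorem taskB (β θ : ℝ) (h1 : 1 < β) (hint : IsIntegral ℤ β) (hint' : IsIntegral ℤ β⁻¹)
    (hrel : ∀ m : ℤ, ∃ n : ℤ, β ^ m + β ^ (-m) + 2 * Real.cos (m * θ) = n)
    (κ : ℝ) (hκ : 0 < κ) :
    ∃ (t A : ℝ) (K : ℕ), 1 ≤ t ∧ 0 < A ∧ A ≤ 1 ∧ t * β ^ (-(K : ℤ)) ≤ A ∧
      (∀ m : ℤ, (K : ℤ) < m → ∃ n : ℤ, |t * β ^ m - n| ≤ 2 * A) ∧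
      0 < |q β t K| ∧
      ((K : ℝ) + 1) * A ≤ κ * (q β t K) ^ 2 := by
  sorry

/-- TASK C1: characteristic function of finite sign sums -/
theorem taskC1 (s : Finset ℕ) (a : ℕ → ℝ) :
    ∫ ω, cc (∑ i ∈ s, sg (ω i) * a i) ∂coins = ∏ i ∈ s, cc (a i) := by
  sorry

/-- TASK C2: L² estimate under the coin measure -/
theorem taskC2 (β : ℝ) (h1 : 1 < β) (t A : ℝ) (K N : ℕ) (hN : 0 < N) (ht : 1 ≤ t) (hA : 0 < A)
    (hK : t * β ^ (-(K : ℤ)) ≤ A)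
    (hw : ∀ m : ℤ, (K : ℤ) < m → ∃ n : ℤ, |t * β ^ m - n| ≤ 2 * A) :
    ∫ ω, (F β t K N (signedPowerSum β⁻¹ ω) - q β t K) ^ 2 ∂coins ≤
      3 * ((2 * π * A / (β - 1)) ^ 2 + 16 * π ^ 2 * N * A ^ 2 + (4 * K + 1) / N) := by
  sorry

/-- TASK D: Lebesgue estimate -/
theorem taskD (β : ℝ) (h1 : 1 < β) (t A : ℝ) (K N : ℕ) (hN : 0 < N) (ht : 1 ≤ t) (hA : 0 < A)
    (hK : t * β ^ (-(K : ℤ)) ≤ A) (R : ℝ) (hR : 0 ≤ R) :
    ∫ x in (-R)..R, (F β t K N x) ^ 2 ≤ 2 * R / N + A / (π * (β - 1)) := by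
  sorry

/-- TASK E1: singularity criterion -/
theorem taskE1 (μ : Measure ℝ) [IsProbabilityMeasure μ] (R : ℝ) (hR : 0 ≤ R)
    (hsupp : μ (Set.Icc (-R) R)ᶜ = 0)
    (h : ∀ κ : ℝ, 0 < κ → ∃ (f : ℝ → ℝ) (c : ℝ), Continuous f ∧ 0 < |c| ∧
      (∃ C, ∀ x, |f x| ≤ C) ∧
      ∫ x, (f x - c) ^ 2 ∂μ ≤ κ * c ^ 2 ∧ ∫ x in (-R)..R, (f x) ^ 2 ≤ κ * c ^ 2) :
    μ.MutuallySingular (volume : Measure ℝ) := by
  sorry

/-- TASK E2: `signedPowerSum` is continuous/measurable with the bound -/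
theorem taskE2 (β : ℝ) (h1 : 1 < β) :
    Measurable (signedPowerSum β⁻¹) ∧ ∀ ω, |signedPowerSum β⁻¹ ω| ≤ β / (β - 1) := by
  sorry


/-- FINAL ASSEMBLY (done from the tasks) -/
theorem final (β : ℝ) (hβ : IsQuarticSalem β) (_hβ₂ : β < 2) :
    (bernoulliConvolution β⁻¹).MutuallySingular (volume : Measure ℝ) := by
  sorry

end Crest.Agent.R104.Skel
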